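import Vale.Agent.P139.H312.Lad

/-!
# (I3): final statement of the certificate [E] at `p = ∞`, `d = 13`

`EvGood w R`: the Evans functions `Ev 13 l w R` (745) have, in the closed right half plane, only
the symmetry zeros `λ = 0, 1` (`l = 0`), `λ = 1/2` (`l = 1`), and these are simple.
-/

noncomputable section

open MeasureTheory Set Filter Topology Complex ComplexConjugate

namespace Vale.Agent.P139.H312

open Vale.Agent.P139.KU

/-- The box of the certificate. -/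
def Box (w R : ℝ) : Prop :=
  |w - 674128401314 / 10 ^ 12| ≤ 1 / 10 ^ 6 ∧ |R - 3264331003852 / 10 ^ 12| ≤ 1 / 10 ^ 5

lemma Box.w_bd {w R : ℝ} (h : Box w R) : 0.6741274 < w ∧ w < 0.6741295 := by
  obtain ⟨h, -⟩ := h
  rw [abs_le] at h
  constructor <;> norm_num at * <;> linarith

lemma Box.R_bd {w R : ℝ} (h : Box w R) : 3.264320 < R ∧ R < 3.264342 := by
  obtain ⟨-, h⟩ := h
  rw [abs_le] at h
  constructor <;> norm_num at * <;> linarith

lemma Box.R_pos {w R : ℝ} (h : Box w R) : 0 < R := by have := h.R_bd.1; linarith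

lemma Box.w_ne {w R : ℝ} (h : Box w R) : w ≠ 0 := by have := h.w_bd.1; linarith

lemma Box.rho_bd {w R : ℝ} (h : Box w R) : 2.66394 < R ^ 2 / 4 ∧ R ^ 2 / 4 < 2.66399 := by
  obtain ⟨h1, h2⟩ := h.R_bd
  constructor <;> nlinarith

/-- The symmetry values: phase and time translation (`l = 0`), space translation (`l = 1`). -/
def SymVal (l : ℕ) (lam : ℂ) : Prop :=
  (l = 0 ∧ (lam = 0 ∨ lam = 1)) ∨ (l = 1 ∧ lam = 1 / 2)

/-- The spectral certificate at `p = ∞` for the wall data `(w, R)`. -/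
structure EvGood (w R : ℝ) : Prop where
  ne : ∀ (l : ℕ) (lam : ℂ), 0 ≤ lam.re → ¬ SymVal l lam → Ev 13 l w R lam ≠ 0
  simple : ∀ (l : ℕ) (lam : ℂ), SymVal l lam → deriv (Ev 13 l w R) lam ≠ 0

/-- Flux positivity `Re (-∂_r F0 / F0) > 0`. -/
def Fl (l : ℕ) (w R : ℝ) (lam : ℂ) : Prop :=
  (F0' 13 l w lam R * conj (F0 13 l w lam R)).re < 0

lemma Fl.F0_ne {l : ℕ} {w R : ℝ} {lam : ℂ} (h : Fl l w R lam) : F0 13 l w lam R ≠ 0 := by
  intro h0
  simp [Fl, h0] at h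

/-- Flux positivity at `λ` and `λ̄` excludes a zero of the Evans function. -/
theorem Ev_ne_of_Fl {l : ℕ} {w R : ℝ} {lam : ℂ} (h : Fl l w R lam) (h' : Fl l w R (conj lam)) :
    Ev 13 l w R lam ≠ 0 := by
  have h1 := h.F0_ne
  have h2 := h'.F0_ne
  intro h0
  unfold Ev F0s F0s' at h0
  set x := F0 13 l w lam R with hx
  set x' := F0' 13 l w lam R with hx'
  set y := F0 13 l w (conj lam) R with hy
  set y' := F0' 13 l w (conj lam) R with hy'
  have hX : 0 < normSq x := normSq_pos.2 h1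
  have hY : 0 < normSq y := normSq_pos.2 h2
  unfold Fl at h h'
  rw [← hx, ← hx'] at h
  rw [← hy, ← hy'] at h'
  -- multiply by `conj x * y`
  have e : (x' * conj x) * ((normSq y : ℝ) : ℂ) + ((normSq x : ℝ) : ℂ) * conj (y' * conj y) = 0 := by
    rw [normSq_eq_conj_mul_self, normSq_eq_conj_mul_self, map_mul, Complex.conj_conj]
    linear_combination (conj x * y) * h0
  have e2 := congrArg Complex.re e
  rw [add_re, re_mul_ofReal, re_ofReal_mul, conj_re, zero_re] at e2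
  nlinarith [mul_pos hX (neg_pos.2 h'), mul_pos hY (neg_pos.2 h)]

/-- `F0` in the `S` normalisation. -/
lemma F0_eq (d l : ℕ) (w : ℝ) (lam : ℂ) (R : ℝ) :
    F0 d l w lam R = S (aE l w lam) (bE d l) ((R ^ 2 / 4 : ℝ) : ℂ) := rfl

/-- `F0'` in the `P` normalisation. -/
lemma F0'_eq (d l : ℕ) (w : ℝ) (lam : ℂ) {R : ℝ} (hR : 0 < R) :
    F0' d l w lam R = -((2 / R : ℝ) : ℂ) * P (aE l w lam) (bE d l) ((R ^ 2 / 4 : ℝ) : ℂ) := by
  have : (R : ℂ) ≠ 0 := by exact_mod_cast hR.ne'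
  unfold F0' dG P G
  push_cast
  field_simp
  ring

/-- `Fl` in terms of `S, P`. -/
theorem Fl_iff {l : ℕ} {w R : ℝ} (hR : 0 < R) {lam : ℂ} :
    Fl l w R lam ↔ 0 < (P (aE l w lam) (bE 13 l) ((R ^ 2 / 4 : ℝ) : ℂ) *
      conj (S (aE l w lam) (bE 13 l) ((R ^ 2 / 4 : ℝ) : ℂ))).re := by
  unfold Fl
  rw [F0'_eq 13 l w lam hR, F0_eq, neg_mul, neg_mul, neg_re, mul_assoc, re_ofReal_mul]
  have : 0 < 2 / R := by positivity
  constructor
  · intro h
    by_contra hc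
    push Not at hc
    nlinarith
  · intro h
    nlinarith [mul_pos this h]

lemma bE_13 (l : ℕ) : bE 13 l = ((13 / 2 + l : ℝ) : ℂ) := by
  unfold bE; push_cast; ring

/-- **The a priori data**: for `-1 < Re λ + l/2` and `11/4 ≤ Re λ + n` the pair `(S, P)` is
`i^n s (A, B)`, `(A, B) = lad ρ b q n a`, with `s ≠ 0`, `Re q ≥ (b-1)/2` (and `Im q ≤ ρ/2` if
`Re λ + n > 13/4`). -/
theorem exists_lad (l : ℕ) (w : ℝ) {R : ℝ} (hR : 0 < R) {lam : ℂ} (n : ℕ)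
    (h : -1 < lam.re + l / 2) (hn : 11 / 4 ≤ lam.re + n) :
    ∃ q s : ℂ, s ≠ 0 ∧ (11 / 2 + l) / 2 ≤ q.re ∧ (13 / 4 < lam.re + n → q.im ≤ R ^ 2 / 4 / 2) ∧
      S (aE l w lam) (bE 13 l) ((R ^ 2 / 4 : ℝ) : ℂ) =
        s * (lad ((R ^ 2 / 4 : ℝ) : ℂ) (bE 13 l) q n (aE l w lam)).1 ∧
      P (aE l w lam) (bE 13 l) ((R ^ 2 / 4 : ℝ) : ℂ) =
        s * (lad ((R ^ 2 / 4 : ℝ) : ℂ) (bE 13 l) q n (aE l w lam)).2 := by
  have hρ : 0 < R ^ 2 / 4 := by positivity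
  have hre : (aE l w lam + n).re = lam.re + l / 2 + n := by
    rw [add_re, aE_re, natCast_re]
  have hl : (0 : ℝ) ≤ l := by positivity
  have ha : 0 < (aE l w lam + n).re := by rw [hre]; linarith
  have hab : ((13 / 2 + l : ℝ) - 1) / 2 ≤ (aE l w lam + n).re := by rw [hre]; linarith
  obtain ⟨hs, q, hq, hq1, hq2⟩ := exists_q (b := (13 / 2 + l : ℝ)) ha hab hρ
  rw [← bE_13] at hs hq
  obtain ⟨e1, e2⟩ := S_P_lad (bE 13 l) q (ρ := ((R ^ 2 / 4 : ℝ) : ℂ)) (by rw [ofReal_re]; exact hρ) n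
    (a := aE l w lam) (by rw [aE_re]; exact h) hq
  refine ⟨q, I ^ n * S (aE l w lam + n) (bE 13 l) ((R ^ 2 / 4 : ℝ) : ℂ),
    mul_ne_zero (pow_ne_zero _ I_ne_zero) hs, by linarith, fun h13 => hq2 ?_, e1, e2⟩
  rw [hre]; linarith

/-- `Fl` from the positivity of `Re (B conj A)`. -/
theorem Fl_of_lad {l : ℕ} {w R : ℝ} (hR : 0 < R) {lam : ℂ} (n : ℕ) (h : -1 < lam.re + l / 2)
    (hn : 11 / 4 ≤ lam.re + n)
    (H : ∀ q : ℂ, (11 / 2 + l) / 2 ≤ q.re → (13 / 4 < lam.re + n → q.im ≤ R ^ 2 / 4 / 2) →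
      0 < ((lad ((R ^ 2 / 4 : ℝ) : ℂ) (bE 13 l) q n (aE l w lam)).2 *
        conj (lad ((R ^ 2 / 4 : ℝ) : ℂ) (bE 13 l) q n (aE l w lam)).1).re) :
    Fl l w R lam := by
  obtain ⟨q, s, hs, hq1, hq2, e1, e2⟩ := exists_lad l w hR n h hn
  rw [Fl_iff hR, e1, e2]
  have h0 := H q hq1 hq2
  have hN : 0 < normSq s := normSq_pos.2 hs
  set A := (lad ((R ^ 2 / 4 : ℝ) : ℂ) (bE 13 l) q n (aE l w lam)).1
  set B := (lad ((R ^ 2 / 4 : ℝ) : ℂ) (bE 13 l) q n (aE l w lam)).2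
  have e : s * B * conj (s * A) = ((normSq s : ℝ) : ℂ) * (B * conj A) := by
    rw [map_mul, normSq_eq_conj_mul_self]; ring
  rw [e, re_ofReal_mul]
  exact mul_pos hN h0

/-- The far right: `Re λ ≥ 11/4`, any `l`. -/
theorem Fl_right {l : ℕ} {w R : ℝ} (hR : 0 < R) {lam : ℂ} (h : 11 / 4 ≤ lam.re) :
    Fl l w R lam := by
  have hl : (0 : ℝ) ≤ l := by positivity
  refine Fl_of_lad hR 0 (by linarith) (by simpa using h) ?_
  intro q hq _
  simp only [lad, map_one, mul_one]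
  linarith

/-- Output of [E.big]. -/
def BigOut (w R : ℝ) : Prop :=
  ∀ (l : ℕ) (lam : ℂ), 0 ≤ lam.re → (4 ≤ l ∨ 4 ≤ |lam.im|) → Fl l w R lam

/-- Output of [E.wrap] + [E.num]. -/
structure WrapOut (w R : ℝ) : Prop where
  ne : ∀ (l : ℕ) (lam : ℂ), l ≤ 3 → 0 ≤ lam.re → lam.re ≤ 11 / 4 → |lam.im| ≤ 4 →
    ¬ SymVal l lam → Ev 13 l w R lam ≠ 0
  simple : ∀ (l : ℕ) (lam : ℂ), SymVal l lam → deriv (Ev 13 l w R) lam ≠ 0

/-- Assembly of (I3). -/
theorem EvGood_of {w R : ℝ} (hR : 0 < R) (hb : BigOut w R) (hw : WrapOut w R) : EvGood w R where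
  ne := by
    intro l lam h0 hS
    by_cases h1 : 11 / 4 ≤ lam.re
    · exact Ev_ne_of_Fl (Fl_right hR h1) (Fl_right hR (by simpa using h1))
    by_cases h2 : 4 ≤ l ∨ 4 ≤ |lam.im|
    · refine Ev_ne_of_Fl (hb l lam h0 h2) (hb l (conj lam) (by simpa using h0) ?_)
      simpa using h2
    push Not at h1 h2
    exact hw.ne l lam (by omega) h0 h1.le h2.2.le hS
  simple := hw.simple

end Vale.Agent.P139.H312
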