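import Vale.Agent.P139.H312.BigFin
import Vale.Agent.P139.H472.Glue
import Vale.Agent.P139.H539.Big7

/-!
# (I3): `EvGood` on the box, unconditional
-/

noncomputable section

open Complex

namespace Vale.Agent.P139.H312

open Vale.Agent.P139.KU (Qinf')

/-- The box of 472 contains `Box`. -/
lemma Box.boxW {w R : ℝ} (hB : Box w R) : H472.BoxW w (R ^ 2 / 4) := by
  obtain ⟨h1, h2⟩ := hB.rho_bd
  have h := abs_le.1 hB.1
  refine ⟨?_, ?_⟩
  · rw [abs_le]
    constructor
    · norm_num at h ⊢; linarith [h.1]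
    · norm_num at h ⊢; linarith [h.2]
  · rw [abs_le]
    constructor
    · norm_num at h1 ⊢; linarith
    · norm_num at h2 ⊢; linarith

/-- **(I3)** on the box, from (E.big). -/
theorem evGood_of_big {w R : ℝ} (hB : Box w R) (hQ : Qinf' 13 w R = 0) (hbig : BigOut5 w R) :
    EvGood w R :=
  H772.evGood_of_bd hB.w_ne hB.R_pos hQ (fun l hl => H472.bdIneq_all hB.boxW l hl) hbig

/-- The half-step chain (539). -/
theorem hOut {w R : ℝ} (hB : Box w R) : HOut w R := by
  obtain ⟨hw1, hw2⟩ := hB.w_bd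
  obtain ⟨hρ1, hρ2⟩ := hB.rho_bd
  have hR := hB.R_pos
  have hρ3 : 266 / 100 ≤ R ^ 2 / 4 := by norm_num at hρ1 ⊢; linarith
  have hρ4 : R ^ 2 / 4 ≤ 267 / 100 := by norm_num at hρ2 ⊢; linarith
  refine ⟨fun l lam h0 hl hν => H539.fl_H1 hl hR hρ4 h0 hν, fun l lam h0 hl _ h5 => ?_,
    fun l lam h0 hl _ => H539.fl_23 hl hR hρ3 hρ4 h0⟩
  refine H539.fl_H2 hl hR hρ4 h0 ?_
  norm_num at hw2 ⊢; linarith

/-- [E.big] on the box. -/
theorem bigOut5 {w R : ℝ} (hB : Box w R) : BigOut5 w R := bigOut5_of hB (hOut hB)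

/-- **(I3)**: at every exact zero `(w, R)` of the profile equation in the box, the hard wall
Evans functions have in the closed right half plane only the symmetry zeros, all simple. -/
theorem I3 : ∀ w R : ℝ, Box w R → Qinf' 13 w R = 0 → EvGood w R :=
  fun _ _ hB hQ => evGood_of_big hB hQ (bigOut5 hB)

end Vale.Agent.P139.H312
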