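import Vale.Agent.P139.H312.Tail0
import Vale.Agent.P139.H772.Box7
import Vale.Agent.P139.H539.Big5

/-!
# [E.big]: the outer flux inequality on the box, case split
-/

noncomputable section

open Complex

namespace Vale.Agent.P139.H312

/-- Output of [E.big] with height `5`. -/
def BigOut5 (w R : ℝ) : Prop :=
  ∀ (l : ℕ) (lam : ℂ), 0 ≤ lam.re → (4 ≤ l ∨ 5 ≤ |lam.im|) → Fl l w R lam

/-- The half-step chain (539). -/
structure HOut (w R : ℝ) : Prop where
  h1 : ∀ (l : ℕ) (lam : ℂ), 0 ≤ lam.re → 4 ≤ l → w - lam.im ≤ 0 → Fl l w R lam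
  h2 : ∀ (l : ℕ) (lam : ℂ), 0 ≤ lam.re → 1 ≤ l → l ≤ 3 → 5 ≤ lam.im → Fl l w R lam
  h3 : ∀ (l : ℕ) (lam : ℂ), 0 ≤ lam.re → 23 ≤ l → w - lam.im ≤ 7 / 100 * ((l : ℝ) + 11 / 2) ^ 2 →
    Fl l w R lam

/-- The case split. -/
theorem bigOut5_of {w R : ℝ} (hB : Box w R) (hH : HOut w R) : BigOut5 w R := by
  intro l lam h0 h
  obtain ⟨hw1, hw2⟩ := hB.w_bd
  obtain ⟨hρ1, hρ2⟩ := hB.rho_bd
  have hR := hB.R_pos
  have hρ3 : 266 / 100 ≤ R ^ 2 / 4 := by norm_num at hρ1 ⊢; linarith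
  have hρ4 : R ^ 2 / 4 ≤ 2665 / 1000 := by norm_num at hρ2 ⊢; linarith
  rcases Nat.lt_or_ge l 4 with hl | hl
  · -- `l ≤ 3`
    have h5 : 5 ≤ |lam.im| := by
      rcases h with h | h
      · omega
      · exact h
    rcases le_abs.1 h5 with h6 | h6
    · rcases Nat.eq_zero_or_pos l with rfl | hl0
      · rcases le_or_gt (lam.im - w) 6 with h7 | h7
        · exact H772.fl_box hR hρ1.le hρ2.le h0 (Or.inl ⟨rfl, by norm_num at hw2 ⊢; linarith, h7⟩)
        · exact fl_tail0 hR hρ4 h0 h7.le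
      · exact hH.h2 l lam h0 hl0 (by omega) h6
    · refine H539.fl_upper hR hρ3 h0 ?_ (fun h => by omega) (fun h => by omega)
      norm_num at hw1 ⊢; linarith
  · rcases le_or_gt (w - lam.im) 0 with h6 | h6
    · exact hH.h1 l lam h0 hl h6
    rcases Nat.lt_or_ge l 10 with hl2 | hl2
    · have hcase : ∀ Y : ℝ, (w - lam.im ≤ Y → Fl l w R lam) → 63 / 10 ≤ Y →
          (5 ≤ l → 7 / 100 * ((l : ℝ) + 11 / 2) ^ 2 ≤ Y) → Fl l w R lam := by
        intro Y hY hY1 hY2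
        rcases le_or_gt (w - lam.im) Y with h7 | h7
        · exact hY h7
        · exact H539.fl_upper hR hρ3 h0 (by linarith) (fun _ => by linarith)
            (fun h8 => (hY2 h8).trans h7.le)
      interval_cases l
      · exact hcase 8 (fun h7 => H772.fl_box hR hρ1.le hρ2.le h0
          (Or.inr ⟨h6.le, Or.inl ⟨rfl, h7⟩⟩)) (by norm_num) (fun h => by omega)
      · exact hcase 10 (fun h7 => H772.fl_box hR hρ1.le hρ2.le h0
          (Or.inr ⟨h6.le, Or.inr (Or.inl ⟨rfl, h7⟩)⟩)) (by norm_num) (fun _ => by norm_num)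
      · exact hcase 12 (fun h7 => H772.fl_box hR hρ1.le hρ2.le h0
          (Or.inr ⟨h6.le, Or.inr (Or.inr (Or.inl ⟨rfl, h7⟩))⟩)) (by norm_num)
          (fun _ => by norm_num)
      · exact hcase (57 / 4) (fun h7 => H772.fl_box hR hρ1.le hρ2.le h0
          (Or.inr ⟨h6.le, Or.inr (Or.inr (Or.inr (Or.inl ⟨rfl, h7⟩)))⟩)) (by norm_num)
          (fun _ => by norm_num)
      · exact hcase (33 / 2) (fun h7 => H772.fl_box hR hρ1.le hρ2.le h0
          (Or.inr ⟨h6.le, Or.inr (Or.inr (Or.inr (Or.inr (Or.inl ⟨rfl, h7⟩))))⟩)) (by norm_num)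
          (fun _ => by norm_num)
      · exact hcase (33 / 2) (fun h7 => H772.fl_box hR hρ1.le hρ2.le h0
          (Or.inr ⟨h6.le, Or.inr (Or.inr (Or.inr (Or.inr (Or.inr ⟨rfl, h7⟩))))⟩)) (by norm_num)
          (fun _ => by norm_num)
    · rcases le_or_gt (w - lam.im) (7 / 100 * ((l : ℝ) + 11 / 2) ^ 2) with h7 | h7
      · rcases Nat.lt_or_ge l 23 with hl3 | hl3
        · exact H772.fl_box2 hR hρ1.le hρ2.le h0 h6.le hl2 (by omega) h7
        · exact hH.h3 l lam h0 hl3 h7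
      · have hl' : (10 : ℝ) ≤ l := by exact_mod_cast hl2
        refine H539.fl_upper hR hρ3 h0 ?_ (fun h => by omega) (fun _ => h7.le)
        nlinarith

end Vale.Agent.P139.H312
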