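import Vale.Agent.P139.H312.I3

/-!
# Half steps `c → c + 1` at fixed `a`, and the tail `Im λ - w ≥ 6` for `l = 0`

`q a (c+1) = b + i ρ (b - a) / (q a c - i ρ)`, `b = a + c + 1` real.
-/

noncomputable section

open MeasureTheory Set Filter Topology Complex ComplexConjugate

namespace Vale.Agent.P139.H312

open Vale.Agent.P139.KU
open Vale.Agent.P139.H66 (q)

/-- Disc bound: `Re (h/u) ≥ (Re h - |h|)/(2X)` for `Re u ≥ X > 0`. -/
lemma re_div_ge {h u : ℂ} {X : ℝ} (hX : 0 < X) (hu : X ≤ u.re) :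
    (h.re - ‖h‖) / (2 * X) ≤ (h / u).re := by
  have hu0 : u ≠ 0 := by
    intro h0; rw [h0, zero_re] at hu; linarith
  have hun : 0 < ‖u‖ := norm_pos_iff.2 hu0
  have hXc : ((2 * X : ℝ) : ℂ) ≠ 0 := by exact_mod_cast (by positivity : (2 * X : ℝ) ≠ 0)
  have n1 : ‖u⁻¹ - ((2 * X : ℝ) : ℂ)⁻¹‖ ≤ 1 / (2 * X) := by
    have e1 : u⁻¹ - ((2 * X : ℝ) : ℂ)⁻¹ = (((2 * X : ℝ) : ℂ) - u) / (((2 * X : ℝ) : ℂ) * u) := by
      field_simp
    have hle : ‖((2 * X : ℝ) : ℂ) - u‖ ≤ ‖u‖ := by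
      apply le_of_sq_le_sq _ hun.le
      rw [← normSq_eq_norm_sq, ← normSq_eq_norm_sq, normSq_apply, normSq_apply, sub_re, sub_im,
        ofReal_re, ofReal_im]
      nlinarith
    rw [e1, norm_div, norm_mul, norm_real, Real.norm_eq_abs, abs_of_pos (by positivity),
      div_le_div_iff₀ (by positivity) (by positivity)]
    nlinarith
  have e : h / u = h * (u⁻¹ - ((2 * X : ℝ) : ℂ)⁻¹) + h / ((2 * X : ℝ) : ℂ) := by
    field_simp
    ring
  have n2 : -(‖h‖ * (1 / (2 * X))) ≤ (h * (u⁻¹ - ((2 * X : ℝ) : ℂ)⁻¹)).re := by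
    have := (abs_le.1 (Complex.abs_re_le_norm (h * (u⁻¹ - ((2 * X : ℝ) : ℂ)⁻¹)))).1
    rw [norm_mul] at this
    have h3 : ‖h‖ * ‖u⁻¹ - ((2 * X : ℝ) : ℂ)⁻¹‖ ≤ ‖h‖ * (1 / (2 * X)) := by gcongr
    linarith
  rw [e, add_re, Complex.div_ofReal_re]
  have : (h.re - ‖h‖) / (2 * X) = h.re / (2 * X) - ‖h‖ * (1 / (2 * X)) := by ring
  rw [this]
  linarith

/-- The half step. -/
theorem half_step {a c : ℂ} (ha : 0 < a.re) {ρ : ℝ} (hρ : 0 < ρ) (hJ : J a c ρ ≠ 0)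
    (hq : 0 < (q a c ρ).re) :
    J a (c + 1) ρ ≠ 0 ∧
      q a (c + 1) ρ = (a + c + 1) + I * ρ * (c + 1) / (q a c ρ - I * ρ) := by
  have hζ : 0 < ((ρ : ℝ) : ℂ).re := by simpa using hρ
  have hρ0 : (ρ : ℂ) ≠ 0 := by exact_mod_cast hρ.ne'
  have h1 := ladder_fst c ha hζ
  have h2 := ladder_snd c ha hζ
  have h3 := H66.q_eq hJ
  have hu : q a c ρ - I * ρ ≠ 0 := by
    intro h0
    have h4 := congrArg Complex.re h0
    simp at h4
    linarith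
  have e1 : ρ * J a (c + 1) ρ = I * (q a c ρ - I * ρ) * J a c ρ := by
    rw [h1]
    linear_combination I * h3 + (ρ : ℂ) * J a c ρ * Complex.I_mul_I
  have hJ1 : J a (c + 1) ρ ≠ 0 := by
    intro h0
    rw [h0, mul_zero] at e1
    exact (mul_ne_zero (mul_ne_zero I_ne_zero hu) hJ) e1.symm
  refine ⟨hJ1, ?_⟩
  have e2 : ρ * (ρ * J (a + 1) (c + 1) ρ) =
      (a * ρ + I * (a + c + 1) * q a c ρ) * J a c ρ := by
    rw [h2]
    linear_combination I * (a + c + 1) * h3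
  have e3 : q a (c + 1) ρ = (a * ρ + I * (a + c + 1) * q a c ρ) / (I * (q a c ρ - I * ρ)) := by
    rw [eq_div_iff (mul_ne_zero I_ne_zero hu)]
    unfold H66.q at *
    rw [div_mul_eq_mul_div, div_eq_iff hJ1]
    apply mul_left_cancel₀ hρ0
    apply mul_left_cancel₀ hJ
    linear_combination (J a c ρ * (I * ((ρ : ℂ) * J (a + 1) c ρ / J a c ρ - I * ρ))) * e2 -
      (J a c ρ * (a * ρ + I * (a + c + 1) * ((ρ : ℂ) * J (a + 1) c ρ / J a c ρ))) * e1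
  rw [e3]
  obtain ⟨u, hud⟩ : ∃ u : ℂ, u = q a c ρ - I * ρ := ⟨_, rfl⟩
  rw [← hud] at hu ⊢
  have hqu : q a c ρ = u + I * ρ := by rw [hud]; ring
  rw [hqu, div_eq_iff (mul_ne_zero I_ne_zero hu)]
  have e5 : (a + c + 1 + I * ρ * (c + 1) / u) * (I * u) =
      (a + c + 1) * (I * u) + I * I * ρ * (c + 1) := by
    field_simp
  rw [e5]
  linear_combination (a * (ρ : ℂ)) * Complex.I_mul_I

end Vale.Agent.P139.H312
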