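import Vale.Agent.P139.H66.Phi
import Vale.Agent.P139.KU.NonDeg

/-!
# The pole-free ladder in the `S` normalisation, valid for all `Re a > -1`

`S a b ρ = J a (b-a-1) ρ / Γ(a)` for `Re a > 0` (745's extension to `Re a > -1`).
With `s a = S a b ρ`, `p a = a ρ S (a+1) (b+1) ρ` (`= -ρ s'`), `c = b - a - 1`:
`s a = i (p (a+1) - (iρ + c) s (a+1))`, `p a = a i (p (a+1) - iρ s (a+1))`.
-/

noncomputable section

open MeasureTheory Set Filter Topology Complex ComplexConjugate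

namespace Vale.Agent.P139.H312

open Vale.Agent.P139.KU

/-- `-ζ d/dζ S a b ζ`. -/
def P (a b ζ : ℂ) : ℂ := a * ζ * S (a + 1) (b + 1) ζ

/-- Shift of the second parameter. -/
theorem S_shift {a ζ : ℂ} (b : ℂ) (ha : 0 < a.re) (hζ : 0 < ζ.re) :
    S a (b + 1) ζ = S a b ζ + I * a * S (a + 1) (b + 1) ζ := by
  have ha1 : 0 < (a + 1).re := by simp; linarith
  have ha0 : a ≠ 0 := by intro h; rw [h] at ha; simp at ha
  have hG : Gamma a ≠ 0 := Complex.Gamma_ne_zero_of_re_pos ha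
  have h := J_rec_c (b - a) ha hζ
  rw [S_eq_of_pos (b + 1) ha hζ, S_eq_of_pos b ha hζ, S_eq_of_pos (b + 1) ha1 hζ,
    Complex.Gamma_add_one a ha0, show b + 1 - a - 1 = b - a by ring,
    show b + 1 - (a + 1) - 1 = b - a - 1 by ring]
  field_simp
  linear_combination h

/-- One ladder step, first component. -/
theorem S_lad {a ζ : ℂ} (b : ℂ) (ha : -1 < a.re) (hζ : 0 < ζ.re) :
    S a b ζ = I * (P (a + 1) b ζ - (I * ζ + (b - a - 1)) * S (a + 1) b ζ) := by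
  have ha1 : 0 < (a + 1).re := by simp; linarith
  have h1 := S_contig b ha hζ
  have h2 := S_shift b ha1 hζ
  unfold P
  linear_combination h1 + ζ * h2 + ζ * S (a + 1) b ζ * Complex.I_mul_I

/-- One ladder step, second component. -/
theorem P_lad {a ζ : ℂ} (b : ℂ) (ha : -1 < a.re) (hζ : 0 < ζ.re) :
    P a b ζ = a * (I * (P (a + 1) b ζ - I * ζ * S (a + 1) b ζ)) := by
  have ha1 : 0 < (a + 1).re := by simp; linarith
  have h2 := S_shift b ha1 hζ
  unfold P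
  linear_combination a * ζ * h2 + a * ζ * S (a + 1) b ζ * Complex.I_mul_I

/-- `P = q S` for `Re a > 0` (`q` of `H66`). -/
theorem P_eq_q {a : ℂ} (b : ℂ) (ha : 0 < a.re) {ρ : ℝ} (hρ : 0 < ρ)
    (h : J a (b - a - 1) ρ ≠ 0) :
    P a b ρ = H66.q a (b - a - 1) ρ * S a b ρ := by
  have hζ : 0 < ((ρ : ℝ) : ℂ).re := by simpa using hρ
  have ha1 : 0 < (a + 1).re := by simp; linarith
  have ha0 : a ≠ 0 := by intro h; rw [h] at ha; simp at ha
  have hG : Gamma a ≠ 0 := Complex.Gamma_ne_zero_of_re_pos ha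
  unfold P H66.q
  rw [S_eq_of_pos (b + 1) ha1 hζ, S_eq_of_pos b ha hζ, Complex.Gamma_add_one a ha0,
    show b + 1 - (a + 1) - 1 = b - a - 1 by ring]
  field_simp

/-- In the half plane of Lemma RE: `S ≠ 0`, `P = q S`, `(b-1)/2 ≤ Re q`. -/
theorem exists_q {a : ℂ} {b : ℝ} (ha : 0 < a.re) (hab : (b - 1) / 2 ≤ a.re) {ρ : ℝ}
    (hρ : 0 < ρ) :
    S a b ρ ≠ 0 ∧ ∃ q : ℂ, P a b ρ = q * S a b ρ ∧ (b - 1) / 2 ≤ q.re ∧
      (b / 2 < a.re → q.im ≤ ρ / 2) := by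
  have hζ : 0 < ((ρ : ℝ) : ℂ).re := by simpa using hρ
  have hb : a + ((b : ℂ) - a - 1) + 1 = (b : ℂ) := by ring
  have hJ : J a ((b : ℂ) - a - 1) ρ ≠ 0 := H66.J_ne_zero hb ha hab hρ
  have hG : Gamma a ≠ 0 := Complex.Gamma_ne_zero_of_re_pos ha
  refine ⟨?_, H66.q a ((b : ℂ) - a - 1) ρ, P_eq_q b ha hρ hJ, H66.re_q_ge hb ha hab hρ,
    fun h => H66.im_q_le hb ha h hρ⟩
  rw [S_eq_of_pos _ ha hζ]
  exact div_ne_zero hJ hG

/-- Affine ladder map on pairs. -/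
def stp (ρ a b : ℂ) (x : ℂ × ℂ) : ℂ × ℂ :=
  (x.2 - (I * ρ + (b - a - 1)) * x.1, a * (x.2 - I * ρ * x.1))

/-- The pair `(A, B)` obtained from `(1, q)` at `a + n` by `n` steps down to `a`. -/
def lad (ρ b q : ℂ) : ℕ → ℂ → ℂ × ℂ
  | 0, _ => (1, q)
  | n + 1, a => stp ρ a b (lad ρ b q n (a + 1))

/-- `(S, P) = i^n S(a+n) (A, B)`. -/
theorem S_P_lad {ρ : ℂ} (b q : ℂ) (hρ : 0 < ρ.re) (n : ℕ) : ∀ {a : ℂ}, -1 < a.re →
    P (a + n) b ρ = q * S (a + n) b ρ →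
    S a b ρ = I ^ n * S (a + n) b ρ * (lad ρ b q n a).1 ∧
    P a b ρ = I ^ n * S (a + n) b ρ * (lad ρ b q n a).2 := by
  induction n with
  | zero =>
    intro a _ h
    simp only [Nat.cast_zero, add_zero] at h
    simp only [lad, pow_zero, Nat.cast_zero, add_zero, one_mul, mul_one, true_and]
    rw [h]; ring
  | succ n ih =>
    intro a ha h
    have ha1 : -1 < (a + 1).re := by simp; linarith
    have e : a + ((n + 1 : ℕ) : ℂ) = a + 1 + n := by push_cast; ring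
    rw [e] at h ⊢
    obtain ⟨h1, h2⟩ := ih ha1 h
    rw [S_lad b ha hρ, P_lad b ha hρ, h1, h2]
    simp only [lad, stp]
    constructor <;> ring

end Vale.Agent.P139.H312
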