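import Vale.Agent.P139.H312.P1ode

/-!
# [I.P1], part 2: a small kernel-checked certificate for the ladder at `λ = 0`, `l = 0`, `R = R0`

Fixed point `k = 10^14`.  An entry `(x, y, r, u1, u2, u3, l2)` stands for the disc
`|k q - (x + i y)| ≤ r` containing the ratio `q = P/S` at level `n`.
-/

noncomputable section

open MeasureTheory Set Filter Topology Complex ComplexConjugate

namespace Vale.Agent.P139.H312

open Vale.Agent.P139.KU

/-- Disc inversion. -/
lemma norm_inv_sub_le {g d : ℂ} {r den : ℝ} (hd : ‖d‖ ≤ r) (hden : den = normSq g - r ^ 2)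
    (hpos : 0 < den) : g + d ≠ 0 ∧ ‖(g + d)⁻¹ - conj g / den‖ ≤ r / den := by
  have hr : 0 ≤ r := (norm_nonneg _).trans hd
  have hgr : r < ‖g‖ := by
    rw [normSq_eq_norm_sq] at hden
    by_contra hc
    push Not at hc
    nlinarith [norm_nonneg g]
  have hne : g + d ≠ 0 := by
    intro h0
    have : g = -d := by linear_combination h0
    rw [this, norm_neg] at hgr
    linarith
  refine ⟨hne, ?_⟩
  have hG : 0 < ‖g + d‖ := norm_pos_iff.2 hne
  have hdc : (den : ℂ) ≠ 0 := by exact_mod_cast hpos.ne'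
  have e : (g + d)⁻¹ - conj g / den = -((r : ℂ) ^ 2 + conj g * d) / (den * (g + d)) := by
    rw [eq_div_iff (mul_ne_zero hdc hne)]
    have e1 : (g + d)⁻¹ * (den * (g + d)) = den := by field_simp
    have e2 : conj g / den * (den * (g + d)) = conj g * (g + d) := by field_simp
    rw [sub_mul, e1, e2]
    have : (den : ℂ) = conj g * g - (r : ℂ) ^ 2 := by
      rw [hden]; push_cast; rw [normSq_eq_conj_mul_self]
    rw [this]; ring
  rw [e, norm_div, norm_neg, norm_mul, norm_real, Real.norm_eq_abs, abs_of_pos hpos,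
    div_le_div_iff₀ (mul_pos hpos hG) hpos]
  suffices h : ‖(r : ℂ) ^ 2 + conj g * d‖ ≤ r * ‖g + d‖ by
    calc _ ≤ r * ‖g + d‖ * den := by gcongr
      _ = _ := by ring
  apply le_of_sq_le_sq _ (by positivity)
  rw [mul_pow, ← normSq_eq_norm_sq, ← normSq_eq_norm_sq]
  have hd2 : normSq d ≤ r ^ 2 := by
    rw [normSq_eq_norm_sq]; gcongr
  have hg2 : r ^ 2 ≤ normSq g := by linarith
  rw [normSq_apply, normSq_apply] at *
  have h1 : (((r : ℂ) ^ 2 + conj g * d)).re = r ^ 2 + (g.re * d.re + g.im * d.im) := by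
    rw [add_re, mul_re, conj_re, conj_im, ← ofReal_pow, ofReal_re]; ring
  have h2 : (((r : ℂ) ^ 2 + conj g * d)).im = g.re * d.im - g.im * d.re := by
    rw [add_im, mul_im, conj_re, conj_im, ← ofReal_pow, ofReal_im]; ring
  rw [h1, h2, add_re, add_im]
  nlinarith [mul_nonneg (sub_nonneg.2 hd2) (sub_nonneg.2 hg2)]

/-- Certificate entry. -/
structure Ent where
  x : ℤ
  y : ℤ
  r : ℤ
  u1 : ℤ
  u2 : ℤ
  u3 : ℤ
  l2 : ℤ

/-- The check of one step. -/
def stepOK (w δ ρ n : ℤ) (p e : Ent) : Bool :=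
  let rp := p.r + 1 + δ
  let ax := n * 10 ^ 14
  let cx := 55 * 10 ^ 13 - ax
  let gx := p.x - cx
  let gy := p.y - ρ - w
  let den := gx * gx + gy * gy - rp * rp
  let acx := ax * cx + w * w
  let acy := ax * w - w * cx
  let nx := (ax - e.x) * den + (acx * gx + acy * gy)
  let ny := (-w - e.y) * den + (acy * gx - acx * gy)
  decide (0 < den) && decide (0 ≤ p.r) && decide (0 ≤ e.u1) && decide (0 ≤ e.u2) &&
  decide (0 ≤ e.u3) && decide (0 ≤ e.l2) &&
  decide (nx * nx + ny * ny ≤ e.u1 * e.u1) && decide (acx * acx + acy * acy ≤ e.u2 * e.u2) &&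
  decide ((cx - ax) * (cx - ax) + (2 * w) * (2 * w) ≤ e.u3 * e.u3) &&
  decide (gx * gx + gy * gy ≤ e.l2 * e.l2) &&
  decide (e.u1 + e.u2 * rp + δ * den + δ * (e.u3 + δ) * (e.l2 + rp) ≤ e.r * den)

/-- The complex number `x + i y`. -/
def zc (x y : ℤ) : ℂ := (x : ℂ) + (y : ℂ) * I

@[simp] lemma zc_re (x y : ℤ) : (zc x y).re = x := by simp [zc]
@[simp] lemma zc_im (x y : ℤ) : (zc x y).im = y := by simp [zc]

lemma norm_le_of_sq {z : ℂ} {x y u : ℤ} (hz : z = zc x y) (hu : 0 ≤ u)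
    (h : x * x + y * y ≤ u * u) : ‖z‖ ≤ u := by
  have hu' : (0 : ℝ) ≤ u := by exact_mod_cast hu
  have h' : (x : ℝ) * x + y * y ≤ u * u := by exact_mod_cast h
  apply le_of_sq_le_sq _ hu'
  rw [← normSq_eq_norm_sq, normSq_apply, hz, zc_re, zc_im]
  linarith

/-- Soundness of one step (scaled variables). -/
theorem step_sound {w δ ρ n : ℤ} {p e : Ent} (hok : stepOK w δ ρ n p e = true) (hδ : 0 ≤ δ)
    {A qk rk : ℂ} (hA : ‖A - zc (n * 10 ^ 14) (-w)‖ ≤ δ)
    (hq : ‖qk - zc p.x p.y‖ ≤ p.r) (hρ : ‖rk - (ρ : ℂ) * I‖ ≤ 1) :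
    qk - rk - (55 * 10 ^ 13 - A) ≠ 0 ∧
      ‖A + A * (55 * 10 ^ 13 - A) / (qk - rk - (55 * 10 ^ 13 - A)) - zc e.x e.y‖ ≤ e.r := by
  simp only [stepOK, Bool.and_eq_true, decide_eq_true_eq] at hok
  obtain ⟨⟨⟨⟨⟨⟨⟨⟨⟨⟨hden, hpr⟩, hu1⟩, hu2⟩, hu3⟩, hl2⟩, h1⟩, h2⟩, h3⟩, h4⟩, h5⟩ := hok
  set rp : ℤ := p.r + 1 + δ with hrp
  set ax : ℤ := n * 10 ^ 14 with hax
  set cx : ℤ := 55 * 10 ^ 13 - ax with hcx
  set gx : ℤ := p.x - cx with hgx
  set gy : ℤ := p.y - ρ - w with hgy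
  set den : ℤ := gx * gx + gy * gy - rp * rp with hden'
  set acx : ℤ := ax * cx + w * w with hacx
  set acy : ℤ := ax * w - w * cx with hacy
  set nx : ℤ := (ax - e.x) * den + (acx * gx + acy * gy) with hnx
  set ny : ℤ := (-w - e.y) * den + (acy * gx - acx * gy) with hny
  set A0 : ℂ := zc ax (-w) with hA0
  set C0 : ℂ := zc cx w with hC0
  set g : ℂ := zc gx gy with hg
  set ε : ℂ := A - A0 with hε
  set d : ℂ := (qk - zc p.x p.y) - (rk - (ρ : ℂ) * I) + ε with hd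
  have hI : I * I = -1 := Complex.I_mul_I
  have hdn : ‖d‖ ≤ (rp : ℝ) := by
    calc ‖d‖ ≤ ‖(qk - zc p.x p.y) - (rk - (ρ : ℂ) * I)‖ + ‖ε‖ := norm_add_le _ _
      _ ≤ (‖qk - zc p.x p.y‖ + ‖rk - (ρ : ℂ) * I‖) + ‖ε‖ := by
        gcongr; exact norm_sub_le _ _
      _ ≤ (p.r + 1) + δ := by gcongr
      _ = (rp : ℝ) := by rw [hrp]; push_cast; ring
  have hAe : A = A0 + ε := by rw [hε]; ring
  have eC : (55 * 10 ^ 13 - A : ℂ) = C0 - ε := by
    rw [hAe, hC0, hA0, zc, zc, hcx, hax]; push_cast; ring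
  have eG : qk - rk - (55 * 10 ^ 13 - A) = g + d := by
    rw [eC, hd, hg, hC0, zc, zc, zc, hgx, hgy]; push_cast; ring
  have hdenR : ((den : ℤ) : ℝ) = normSq g - (rp : ℝ) ^ 2 := by
    rw [normSq_apply, hg, zc_re, zc_im, hden']; push_cast; ring
  have hdpos : (0 : ℝ) < ((den : ℤ) : ℝ) := by exact_mod_cast hden
  obtain ⟨hne, hinv⟩ := norm_inv_sub_le hdn hdenR hdpos
  rw [eG, eC]
  refine ⟨hne, ?_⟩
  have hdc : ((den : ℤ) : ℂ) ≠ 0 := by exact_mod_cast hden.ne'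
  have hdcR : (((den : ℤ) : ℝ) : ℂ) = ((den : ℤ) : ℂ) := by push_cast; rfl
  rw [hdcR] at hinv
  -- the decomposition
  have eAC : A0 * C0 = zc acx acy := by
    rw [hA0, hC0, zc, zc, zc, hacx, hacy]; push_cast
    linear_combination (-(w : ℂ) * w) * hI
  have hN1 : ‖(A0 - zc e.x e.y) * den + A0 * C0 * conj g‖ ≤ e.u1 := by
    refine norm_le_of_sq (x := nx) (y := ny) ?_ hu1 h1
    rw [eAC, hA0, hg]
    apply Complex.ext
    · simp only [add_re, mul_re, sub_re, sub_im, zc_re, zc_im, conj_re, conj_im, intCast_re,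
        intCast_im]
      rw [hnx]; push_cast; ring
    · simp only [add_im, mul_im, sub_re, sub_im, zc_re, zc_im, conj_re, conj_im, intCast_re,
        intCast_im]
      rw [hny]; push_cast; ring
  have hN2 : ‖A0 * C0‖ ≤ e.u2 := norm_le_of_sq eAC hu2 h2
  have hN3 : ‖C0 - A0‖ ≤ e.u3 := by
    refine norm_le_of_sq (x := cx - ax) (y := 2 * w) ?_ hu3 h3
    rw [hC0, hA0, zc, zc, zc]; push_cast; ring
  have hN4 : ‖g‖ ≤ e.l2 := norm_le_of_sq hg hl2 h4
  have hδ' : (0 : ℝ) ≤ δ := by exact_mod_cast hδ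
  have hrp0 : (0 : ℝ) ≤ rp := (norm_nonneg _).trans hdn
  have hinvn : ‖(g + d)⁻¹‖ ≤ (e.l2 + rp) / den := by
    calc ‖(g + d)⁻¹‖ = ‖((g + d)⁻¹ - conj g / den) + conj g / den‖ := by congr 1; ring
      _ ≤ ‖(g + d)⁻¹ - conj g / den‖ + ‖conj g / (den : ℂ)‖ := norm_add_le _ _
      _ ≤ rp / den + e.l2 / den := by
        gcongr
        rw [norm_div, RCLike.norm_conj, ← hdcR, norm_real, Real.norm_eq_abs, abs_of_pos hdpos]
        gcongr
      _ = _ := by ring
  have hsplit : A + A * (C0 - ε) / (g + d) - zc e.x e.y =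
      ((A0 - zc e.x e.y) * den + A0 * C0 * conj g) / den + A0 * C0 * ((g + d)⁻¹ - conj g / den) +
        ε + (ε * (C0 - A0) - ε * ε) * (g + d)⁻¹ := by
    rw [hAe]
    field_simp
    ring
  rw [hsplit]
  have h5' : ((e.u1 : ℤ) : ℝ) + e.u2 * rp + δ * den + δ * (e.u3 + δ) * (e.l2 + rp) ≤ e.r * den := by
    exact_mod_cast h5
  have hu2' : (0 : ℝ) ≤ e.u2 := by exact_mod_cast hu2
  have hu3' : (0 : ℝ) ≤ e.u3 := by exact_mod_cast hu3
  have hl2' : (0 : ℝ) ≤ e.l2 := by exact_mod_cast hl2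
  calc ‖((A0 - zc e.x e.y) * den + A0 * C0 * conj g) / den +
        A0 * C0 * ((g + d)⁻¹ - conj g / den) + ε + (ε * (C0 - A0) - ε * ε) * (g + d)⁻¹‖
      ≤ ‖((A0 - zc e.x e.y) * den + A0 * C0 * conj g) / (den : ℂ)‖ +
        ‖A0 * C0 * ((g + d)⁻¹ - conj g / den)‖ + ‖ε‖ +
        ‖(ε * (C0 - A0) - ε * ε) * (g + d)⁻¹‖ := by
        refine (norm_add_le _ _).trans ?_
        gcongr
        refine (norm_add_le _ _).trans ?_
        gcongr
        exact norm_add_le _ _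
    _ ≤ e.u1 / den + e.u2 * (rp / den) + δ + (δ * e.u3 + δ * δ) * ((e.l2 + rp) / den) := by
        have t1 : ‖((A0 - zc e.x e.y) * den + A0 * C0 * conj g) / (den : ℂ)‖ ≤ e.u1 / den := by
          rw [norm_div, ← hdcR, norm_real, Real.norm_eq_abs, abs_of_pos hdpos]
          rw [hdcR]
          gcongr
        have t2 : ‖A0 * C0 * ((g + d)⁻¹ - conj g / den)‖ ≤ e.u2 * (rp / den) := by
          rw [norm_mul]; gcongr
        have t3 : ‖(ε * (C0 - A0) - ε * ε) * (g + d)⁻¹‖ ≤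
            (δ * e.u3 + δ * δ) * ((e.l2 + rp) / den) := by
          rw [norm_mul]
          gcongr
          refine (norm_sub_le _ _).trans ?_
          rw [norm_mul, norm_mul]
          gcongr
        have t4 : ‖ε‖ ≤ δ := hA
        linarith
    _ = (e.u1 + e.u2 * rp + δ * den + δ * (e.u3 + δ) * (e.l2 + rp)) / den := by
        field_simp
    _ ≤ e.r := by
        rw [div_le_iff₀ hdpos]
        exact h5'

/-- Check of a whole chain: from level `n` (entry `p`) down to level `0`, final test `fin`. -/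
def chk (w δ ρ : ℤ) (fin : Ent → Bool) : ℕ → Ent → List Ent → Bool
  | 0, p, [] => fin p
  | n + 1, p, e :: t => stepOK w δ ρ (n : ℤ) p e && chk w δ ρ fin n e t
  | _, _, _ => false

end Vale.Agent.P139.H312
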