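import Vale.Agent.P139.H312.P1disc

/-!
# [I.P1], part 3: sign data of `N = Qinf'/Qinf` on the faces of the box

Output: `sign_data`.
-/

noncomputable section

open MeasureTheory Set Filter Topology Complex ComplexConjugate

namespace Vale.Agent.P139.H312

open Vale.Agent.P139.KU

/-- `ρ0 = R0²/4` -/
def rho0 : ℝ := R0 ^ 2 / 4

lemma rho0_bd : |10 ^ 14 * rho0 - 266396422567735| ≤ 1 := by
  rw [abs_le]
  constructor <;> norm_num [rho0, R0]

lemma rho0_pos : 0 < rho0 := by norm_num [rho0, R0]

/-- The state at level `n`. -/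
def lev (w : ℝ) (n : ℕ) (p : Ent) : Prop :=
  S (aE 0 w 0 + n) (bE 13 0) (rho0 : ℂ) ≠ 0 ∧ ∃ q : ℂ,
    P (aE 0 w 0 + n) (bE 13 0) (rho0 : ℂ) = q * S (aE 0 w 0 + n) (bE 13 0) (rho0 : ℂ) ∧
    ‖10 ^ 14 * q - zc p.x p.y‖ ≤ p.r

lemma aE_zero (w : ℝ) : aE 0 w 0 = -(I * w) := by
  unfold aE; push_cast; ring

lemma bE_zero : bE 13 0 = 13 / 2 := by
  unfold bE; push_cast; ring

/-- One step of the chain. -/
theorem lev_step {w : ℝ} {wi δ : ℤ} (hδ : 0 ≤ δ) (hw : |10 ^ 14 * w - (wi : ℝ)| ≤ (δ : ℝ)) {n : ℕ}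
    {p e : Ent} (h : lev w (n + 1) p) (hok : stepOK wi δ 266396422567735 n p e = true) :
    lev w n e := by
  obtain ⟨hS, q, hP, hq⟩ := h
  have hρ : 0 < ((rho0 : ℝ) : ℂ).re := by rw [ofReal_re]; exact rho0_pos
  have hn0 : (0 : ℝ) ≤ n := Nat.cast_nonneg n
  have ha : -1 < (aE 0 w 0 + n).re := by
    rw [aE_zero]; simp; linarith
  set a : ℂ := aE 0 w 0 + n with haeq
  have ea : aE 0 w 0 + ((n + 1 : ℕ) : ℂ) = a + 1 := by rw [haeq]; push_cast; ring
  rw [ea] at hS hP
  have hA : ‖10 ^ 14 * a - zc ((n : ℤ) * 10 ^ 14) (-wi)‖ ≤ δ := by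
    have e1 : 10 ^ 14 * a - zc ((n : ℤ) * 10 ^ 14) (-wi) = -(((10 ^ 14 * w - wi : ℝ) : ℂ) * I) := by
      rw [haeq, aE_zero, zc]; push_cast; ring
    rw [e1, norm_neg, norm_mul, norm_I, mul_one, norm_real, Real.norm_eq_abs]
    exact hw
  have hr : ‖10 ^ 14 * (I * rho0) - ((266396422567735 : ℤ) : ℂ) * I‖ ≤ 1 := by
    have e1 : 10 ^ 14 * (I * (rho0 : ℂ)) - ((266396422567735 : ℤ) : ℂ) * I =
        ((10 ^ 14 * rho0 - 266396422567735 : ℝ) : ℂ) * I := by
      push_cast; ring
    rw [e1, norm_mul, norm_I, mul_one, norm_real, Real.norm_eq_abs]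
    exact rho0_bd
  obtain ⟨h1, h2⟩ := step_sound hok hδ hA hq hr
  have e2 : 10 ^ 14 * q - 10 ^ 14 * (I * rho0) - (55 * 10 ^ 13 - 10 ^ 14 * a) =
      10 ^ 14 * (q - I * rho0 - (11 / 2 - a)) := by ring
  rw [e2] at h1 h2
  have hV : q - I * rho0 - (11 / 2 - a) ≠ 0 := fun h0 => h1 (by rw [h0, mul_zero])
  have s1 := S_lad (bE 13 0) ha hρ
  have s2 := P_lad (bE 13 0) ha hρ
  rw [hP, bE_zero] at s1 s2
  obtain ⟨V, hVd⟩ : ∃ V : ℂ, V = q - I * rho0 - (11 / 2 - a) := ⟨_, rfl⟩
  rw [← hVd] at hV h2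
  have s1' : S a (13 / 2) (rho0 : ℂ) = I * V * S (a + 1) (13 / 2) (rho0 : ℂ) := by
    rw [s1, hVd]; ring
  rw [bE_zero] at hS
  have hVe : q - I * rho0 = V + (11 / 2 - a) := by rw [hVd]; ring
  have s2' : P a (13 / 2) (rho0 : ℂ) =
      I * (a * (V + (11 / 2 - a))) * S (a + 1) (13 / 2) (rho0 : ℂ) := by
    rw [s2, ← hVe]; ring
  refine ⟨?_, a * (V + (11 / 2 - a)) / V, ?_, ?_⟩
  · rw [bE_zero, s1']
    exact mul_ne_zero (mul_ne_zero I_ne_zero hV) hS
  · rw [bE_zero, s2', s1']
    field_simp
  · convert h2 using 2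
    field_simp
    ring

/-- Soundness of the chain. -/
theorem chk_sound {w : ℝ} {wi δ : ℤ} (hδ : 0 ≤ δ) (hw : |10 ^ 14 * w - (wi : ℝ)| ≤ (δ : ℝ))
    {fin : Ent → Bool} (L : List Ent) : ∀ {n : ℕ} {p : Ent}, lev w n p →
    chk wi δ 266396422567735 fin n p L = true → ∃ e, lev w 0 e ∧ fin e = true := by
  induction L with
  | nil =>
    intro n p h hc
    match n with
    | 0 => exact ⟨p, h, hc⟩
    | n + 1 => simp [chk] at hc
  | cons e t ih =>
    intro n p h hc
    match n with
    | 0 => simp [chk] at hc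
    | n + 1 =>
      simp only [chk, Bool.and_eq_true] at hc
      exact ih (lev_step hδ hw h hc.1) hc.2

/-- Start of the chain. -/
theorem lev_start {w : ℝ} (hw : w ∈ Icc (0.674 : ℝ) 0.675) :
    lev w 19 ⟨1110 * 10 ^ 12, 0, 8 * 10 ^ 14, 0, 0, 0, 0⟩ := by
  have hρ : 0 < ((rho0 : ℝ) : ℂ).re := by rw [ofReal_re]; exact rho0_pos
  set a : ℂ := aE 0 w 0 + (19 : ℕ) with haeq
  have ha' : a = 19 - I * w := by rw [haeq, aE_zero]; push_cast; ring
  have hare : a.re = 19 := by rw [ha']; simp
  have ha1re : (a + 1).re = 20 := by rw [ha']; simp; norm_num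
  obtain ⟨hS, q, hP, hq, -⟩ := exists_q (a := a + 1) (b := (13 / 2 : ℝ)) (ρ := rho0)
    (by rw [ha1re]; norm_num) (by rw [ha1re]; norm_num) rho0_pos
  have hb : (((13 / 2 : ℝ)) : ℂ) = 13 / 2 := by push_cast; ring
  rw [hb] at hS hP
  set V : ℂ := q - I * rho0 - (11 / 2 - a) with hV
  have hVre : 16.25 ≤ V.re := by
    rw [hV]
    have : (q - I * rho0 - (11 / 2 - a)).re = q.re - (11 / 2 - a.re) := by simp
    rw [this, hare]
    norm_num at hq ⊢
    linarith
  have hV0 : V ≠ 0 := by
    intro h0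
    rw [h0] at hVre
    norm_num at hVre
  have s1 := S_lad (13 / 2 : ℂ) (a := a) (by rw [hare]; norm_num) hρ
  have s2 := P_lad (13 / 2 : ℂ) (a := a) (by rw [hare]; norm_num) hρ
  rw [hP] at s1 s2
  have s1' : S a (13 / 2) (rho0 : ℂ) = I * V * S (a + 1) (13 / 2) (rho0 : ℂ) := by
    rw [s1, hV]; ring
  refine ⟨?_, a * (q - I * rho0) / V, ?_, ?_⟩
  · rw [bE_zero, s1']
    exact mul_ne_zero (mul_ne_zero I_ne_zero hV0) hS
  · rw [bE_zero, s2, s1']
    field_simp
  · have e : a * (q - I * rho0) / V - 11.1 = (a - 11.1 + a * (11 / 2 - a) / 32.5) +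
        a * (11 / 2 - a) * (V⁻¹ - 1 / 32.5) := by
      have : q - I * rho0 = V + (11 / 2 - a) := by rw [hV]; ring
      rw [this]
      field_simp
      ring
    have n1 : ‖V⁻¹ - 1 / 32.5‖ ≤ 1 / 32.5 := by
      have e1 : V⁻¹ - 1 / 32.5 = (32.5 - V) / (32.5 * V) := by
        field_simp
      have hVp : 0 < ‖V‖ := norm_pos_iff.2 hV0
      have hle : ‖(32.5 - V : ℂ)‖ ≤ ‖V‖ := by
        apply le_of_sq_le_sq _ hVp.le
        rw [← normSq_eq_norm_sq, ← normSq_eq_norm_sq, normSq_apply, normSq_apply]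
        have h1 : (32.5 - V : ℂ).re = 32.5 - V.re := by simp
        have h2 : (32.5 - V : ℂ).im = -V.im := by simp
        rw [h1, h2]
        nlinarith
      have h325 : ‖(32.5 : ℂ)‖ = 32.5 := by norm_num
      rw [e1, norm_div, norm_mul, h325, div_le_div_iff₀ (by positivity) (by norm_num)]
      nlinarith
    have n2 : ‖a * (11 / 2 - a)‖ ≤ 257 := by
      apply le_of_sq_le_sq _ (by norm_num)
      rw [← normSq_eq_norm_sq, normSq_apply]
      have h1 : (a * (11 / 2 - a)).re = -256.5 + w ^ 2 := by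
        rw [ha']; simp; ring_nf
      have h2 : (a * (11 / 2 - a)).im = 32.5 * w := by
        rw [ha']; simp; ring_nf
      rw [h1, h2]
      obtain ⟨hw1, hw2⟩ := hw
      norm_num at hw1 hw2 ⊢
      nlinarith [mul_nonneg (sub_nonneg.2 hw1) (sub_nonneg.2 hw2), sq_nonneg w, sq_nonneg (w ^ 2)]
    have n3 : ‖a - 11.1 + a * (11 / 2 - a) / 32.5‖ ≤ 0.03 := by
      have e2 : a - 11.1 + a * (11 / 2 - a) / 32.5 = ((7.9 + (-256.5 + w ^ 2) / 32.5 : ℝ) : ℂ) := by
        rw [ha']
        push_cast
        linear_combination (-(w : ℂ) ^ 2 / 32.5) * Complex.I_mul_I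
      rw [e2, norm_real, Real.norm_eq_abs, abs_le]
      obtain ⟨hw1, hw2⟩ := hw
      norm_num at hw1 hw2 ⊢
      constructor <;> nlinarith
    have n4 : ‖a * (q - I * rho0) / V - 11.1‖ ≤ 8 := by
      rw [e]
      calc _ ≤ ‖a - 11.1 + a * (11 / 2 - a) / 32.5‖ +
          ‖a * (11 / 2 - a) * (V⁻¹ - 1 / 32.5)‖ := norm_add_le _ _
        _ ≤ 0.03 + 257 * (1 / 32.5) := by
          rw [norm_mul (a * (11 / 2 - a))]; gcongr
        _ ≤ 8 := by norm_num
    have e3 : 10 ^ 14 * (a * (q - I * rho0) / V) - zc (1110 * 10 ^ 12) 0 =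
        10 ^ 14 * (a * (q - I * rho0) / V - 11.1) := by
      rw [zc]; push_cast; ring
    rw [e3, norm_mul]
    have : ‖(10 ^ 14 : ℂ)‖ = 10 ^ 14 := by norm_num
    rw [this]
    push_cast
    linarith

/-! ### Certificate data -/

def LA : List Ent :=
  [⟨735155934430787, -119845835998622, 357839911192688, 2426865508900040980340163447422, 2254849345410045393919239188306, 3052978539731049, 2383490848286131⟩,
   ⟨663512820342376, -211330214437142, 193120510108750, 1754886522842997539054947021969, 1959895232097243253377877749653, 2853187334203334, 1938972884208051⟩,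
   ⟨671247407126390, -257414922218245, 101814492485044, 995223289075507137038307985610, 1684952477294088870109662060354, 2653427587867875, 1798138825288553⟩,
   ⟨691084152175894, -260173196878023, 49062223276640, 1583098010270422693890302126318, 1430025230659253230386138188136, 2453706984148337, 1725685136965972⟩,
   ⟨696610558886642, -240010898543460, 21515050240891, 293772873247949478851062183923, 1195119763682785478896487930048, 2254035927854374, 1651591815907619⟩,
   ⟨687496224867627, -214822433719114, 8709809133337, 1418922294910191954492584154408, 980245947917626885369104647582, 2054428865660315, 1556262087995079⟩,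
   ⟨670962902532707, -191172620303368, 3273691691447, 1109337069245751492174394564608, 785420121281114123915853363598, 1854906456956342, 1445646184185439⟩,
   ⟨651883715336876, -168989284044182, 1132058812229, 769689599403474047029014735735, 610671102196703284031186208011, 1655499309591619, 1329043410442995⟩,
   ⟨631898158239566, -146670175796229, 352191955677, 334119254054326269664837224133, 456054166567542830992143417197, 1456254773059415, 1211178806259336⟩,
   ⟨611022329199950, -123000855680330, 95051616490, 356299536250462922207731423509, 321688343384834265830247198323, 1257250159697078, 1093153458564292⟩,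
   ⟨588822323429336, -97243212410682, 21028806502, 393467601740061221701311378360, 207877746130568901866064788484, 1058620783877932, 974697355918630⟩,
   ⟨564803538265974, -68733665557139, 3540297487, 314203065632518607300384148870, 115649055523833536070448722916, 860626495094317, 855373989489874⟩,
   ⟨538356647066601, -36501745600714, 531939666, 113052472017715861679234428841, 50675737699292330743147673789, 663835796005554, 734863388497139⟩,
   ⟨508504752433946, 1154223938378, 247889723, 143558081130910346845130770844, 42345441074140337570309525402, 469763732165785, 612880459471653⟩,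
   ⟨473303924432897, 47615285929488, 255104027, 47625275676830619450258887752, 66708485282929134878468067528, 284038666484560, 489065468348202⟩,
   ⟨427477659130904, 111061319352117, 354165916, 45696061532105140916462343362, 79615873281056976353097455941, 143798345116788, 363003629467198⟩,
   ⟨344337020748077, 217041398005639, 799795014, 20888066311745378383255089682, 75227203779292096541020754441, 201687788570173, 235837727960840⟩,
   ⟨4154091, 266396411517197, 2329230606, 14380366551706166090011412987, 54875830191262016216904993756, 375070612096345, 157478250591855⟩,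
   ⟨1395888, 339365, 497732692, 71308444334636936266748182335, 37354530253940770236988975444, 566284349120058, 554115951705939⟩]

def LB : List Ent :=
  [⟨735155972089369, -119845834166345, 357839564760769, 1785843266635949667024910832341, 2254849331024931859388901662472, 3052978530898653, 2383490834281076⟩,
   ⟨663512939450411, -211330192753862, 193119967666358, 1021298652192460899719266256238, 1959895217576615438625964890564, 2853187324752460, 1938972896996045⟩,
   ⟨671247541632627, -257414865016138, 101813870895752, 606589857922687388307039735746, 1684952462604531686764199584822, 2653427577705504, 1798138901900434⟩,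
   ⟨691084246253550, -260173124880500, 49061617380184, 1313362551530626642978388207310, 1430025215755213066648719180968, 2453706973158795, 1725685209474112⟩,
   ⟨696610608930836, -240010838850835, 21514498540158, 787208894534126892595582164394, 1195119748500413893808516358896, 2254035915891337, 1651591841832966⟩,
   ⟨687496251809261, -214822393161855, 8709311355802, 994203896715555959980677371697, 980245932364384963429523807980, 2054428852534956, 1556262075631882⟩,
   ⟨670962922699362, -191172592729445, 3273237985347, 954178726653267755977903278922, 785420105217222682820358886905, 1854906442419158, 1445646155769203⟩,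
   ⟨651883735666541, -168989262130206, 1131642531793, 617039501812204893597788706457, 610671085399681311875519211008, 1655499293303412, 1329043378577029⟩,
   ⟨631898180533709, -146670155097251, 351811109203, 756611708723946740761534082891, 456054148658136349604502064348, 1456254754542658, 1211178774144147⟩,
   ⟨611022353721560, -123000834225300, 94707124688, 615889039813178323984825263029, 321688323652959369302485311771, 1257250138249384, 1093153425538012⟩,
   ⟨588822350441618, -97243189396753, 20722925347, 409769207217341464047963329705, 207877723054409307145847354234, 1058620758406001, 974697320658223⟩,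
   ⟨564803568436095, -68733640446187, 3275525603, 379858980109783468608951848983, 115649025119977547629899958846, 860626463762355, 855373950830556⟩,
   ⟨538356681635890, -36501717664250, 307374252, 324678946868335532394975202227, 50675688267626396507520647809, 663835755385393, 734863345204978⟩,
   ⟨508504793700825, 1154256002719, 34651517, 92719737265853689347816642938, 42345399429867751830336519532, 469763674764338, 612880409716222⟩,
   ⟨473303977295098, 47615325001923, 9664277, 63237385333945483011325987065, 66708465921750796588486156142, 284038571549878, 489065408770312⟩,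
   ⟨427477736780247, 111061374836990, 5839119, 52953914521673736349185442610, 79615859598905778019356153442, 143798157596316, 363003552340288⟩,
   ⟨344337166227225, 217041535116790, 7897619, 29905421353475721643633411429, 75227188402816929907495871648, 201687654872813, 235837606615376⟩,
   ⟨-385402846, 266396845958733, 17475817, 9184488062482070225421278043, 54875802969925619104729435350, 375070540202900, 157477977165388⟩,
   ⟨-56830544, -40272669, 2126075, 153479462002823464617315174092, 37354474022213557681648794821, 566284301502430, 554116273350267⟩]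

def LC : List Ent :=
  [⟨735155964367563, -119845834502500, 357839559848307, 2136317403906013252359669038677, 2254849359795180256143934904984, 3052978548563459, 2383490862291191⟩,
   ⟨663512920364582, -211330195313765, 193119959572007, 1251090373867018574435826251338, 1959895246617892593168387207555, 2853187343654223, 1938972936360550⟩,
   ⟨671247510450186, -257414874090565, 101813863352259, 867594504564305925516972214742, 1684952491983667823734432201979, 2653427598030261, 1798138945122668⟩,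
   ⟨691084206899983, -260173144034403, 49061612326882, 1056414666368161742472792543516, 1430025245563315474530281228146, 2453706995137896, 1725685251808246⟩,
   ⟨696610567039457, -240010867194181, 21514495769183, 1367559996456341055102112683223, 1195119778865179544714449125471, 2254035939817429, 1651591883929565⟩,
   ⟨687496210176425, -214822427157317, 8709310003418, 1426664940762410923312660714214, 980245963470891817621369383971, 2054428878785693, 1556262120886144⟩,
   ⟨670962881117564, -191172629548523, 3273237383217, 1004275482820447941158268140993, 785420137345029297049738976847, 1854906471493547, 1445646206053679⟩,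
   ⟨651883692770473, -168989300670900, 1131642291623, 1029990396719473276762687378864, 610671118993750008511048017524, 1655499325879851, 1329043433922016⟩,
   ⟨631898134992580, -146670195465980, 351811027312, 779352080170161405325382112393, 456054184476975574440364469530, 1456254791576200, 1211178834144731⟩,
   ⟨611022304470550, -123000877036711, 94707103043, 250202691182847358845936059589, 321688363116737787336807592335, 1257250181144803, 1093153490282335⟩,
   ⟨588822296405101, -97243235428565, 20722922223, 267472171352340354665769134705, 207877769206761040519888253092, 1058620809349901, 974697390949262⟩,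
   ⟨564803508100831, -68733690669538, 3275526240, 418795443212114979621553156888, 115649085927728204237395889916, 860626526426324, 855374028140876⟩,
   ⟨538356612498370, -36501773537553, 307374839, 181480259666608559387355629107, 50675787130986960731641503258, 663835836625773, 734863431794278⟩,
   ⟨508504711167082, 1154191873793, 34651640, 41597625006066544517999339495, 42345482718438036355486214070, 469763789567309, 612880509228178⟩,
   ⟨473303871570568, 47615246856907, 9664312, 106133428995444754023957108709, 66708504644133299174345612184, 284038761419351, 489065527926300⟩,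
   ⟨427477581481245, 111061263866922, 5839137, 57866058832849148134754039417, 79615886963228402662195045757, 143798532637294, 363003706594189⟩,
   ⟨344336875267465, 217041260892350, 7897630, 12335511288227183955113885953, 75227219155789346052139249607, 201687922267644, 235837849306570⟩,
   ⟨393718271, 266395977049647, 17475737, 5647091239619257427764963393, 54875857412628602712604416038, 375070683989884, 157478524020906⟩,
   ⟨59625894, 40949344, 2126076, 126118841640919254532119239697, 37354586485671614536870614411, 566284396737752, 554115630058189⟩]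

/-- final test for the whole `w`-interval -/
def finA (p : Ent) : Bool :=
  decide (p.x + p.y + p.r ≤ 81 * 10 ^ 7) && decide (p.x - p.y + p.r ≤ 81 * 10 ^ 7) &&
  decide (-p.x + p.y + p.r ≤ 81 * 10 ^ 7) && decide (-p.x - p.y + p.r ≤ 81 * 10 ^ 7)

/-- final test for the left end -/
def finB (p : Ent) : Bool := decide (p.y + p.r ≤ -(17 * 10 ^ 6))

/-- final test for the right end -/
def finC (p : Ent) : Bool := decide (17 * 10 ^ 6 ≤ p.y - p.r)

theorem chkA : chk 67412840131400 (10 ^ 8) 266396422567735 finA 19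
    ⟨1110 * 10 ^ 12, 0, 8 * 10 ^ 14, 0, 0, 0, 0⟩ LA = true := by decide +kernel

theorem chkB : chk 67412740131400 0 266396422567735 finB 19
    ⟨1110 * 10 ^ 12, 0, 8 * 10 ^ 14, 0, 0, 0, 0⟩ LB = true := by decide +kernel

theorem chkC : chk 67412940131400 0 266396422567735 finC 19
    ⟨1110 * 10 ^ 12, 0, 8 * 10 ^ 14, 0, 0, 0, 0⟩ LC = true := by decide +kernel

/-- `Qinf`, `Qinf'` at `R0` through the ratio. -/
lemma lev_zero {w : ℝ} {e : Ent} (h : lev w 0 e) :
    Qinf 13 w R0 ≠ 0 ∧ ∃ q : ℂ, Qinf' 13 w R0 = -((2 / R0 : ℝ) : ℂ) * q * Qinf 13 w R0 ∧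
      ‖10 ^ 14 * q - zc e.x e.y‖ ≤ e.r := by
  obtain ⟨hS, q, hP, hq⟩ := h
  simp only [Nat.cast_zero, add_zero] at hS hP
  have hR0 : 0 < R0 := by norm_num [R0]
  have e1 : Qinf 13 w R0 = S (aE 0 w 0) (bE 13 0) (rho0 : ℂ) := by
    rw [Qinf, F0_eq]; rfl
  have e2 : Qinf' 13 w R0 = -((2 / R0 : ℝ) : ℂ) * P (aE 0 w 0) (bE 13 0) (rho0 : ℂ) := by
    rw [Qinf', F0'_eq 13 0 w 0 hR0]; rfl
  refine ⟨by rw [e1]; exact hS, q, ?_, hq⟩
  rw [e2, hP, e1]; ring

theorem stateA {w : ℝ} (hw : |w - w0| ≤ 1 / 10 ^ 6) :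
    Qinf 13 w R0 ≠ 0 ∧ ‖Qinf' 13 w R0‖ ≤ 5 / 10 ^ 6 * ‖Qinf 13 w R0‖ := by
  have hw' := abs_le.1 hw
  have hwI : w ∈ Icc (0.674 : ℝ) 0.675 := by
    constructor <;> norm_num [w0] at hw' ⊢ <;> linarith [hw'.1, hw'.2]
  have hwd : |10 ^ 14 * w - ((67412840131400 : ℤ) : ℝ)| ≤ ((10 ^ 8 : ℤ) : ℝ) := by
    have : 10 ^ 14 * w - ((67412840131400 : ℤ) : ℝ) = 10 ^ 14 * (w - w0) := by
      rw [w0]; push_cast; ring
    rw [this, abs_mul, abs_of_pos (by norm_num : (0 : ℝ) < 10 ^ 14)]
    push_cast
    linarith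
  obtain ⟨e, he, hf⟩ := chk_sound (by norm_num) hwd LA (lev_start hwI) chkA
  obtain ⟨h1, q, h2, h3⟩ := lev_zero he
  refine ⟨h1, ?_⟩
  simp only [finA, Bool.and_eq_true, decide_eq_true_eq] at hf
  obtain ⟨⟨⟨f1, f2⟩, f3⟩, f4⟩ := hf
  have g1 : (e.x : ℝ) + e.y + e.r ≤ 81 * 10 ^ 7 := by exact_mod_cast f1
  have g2 : (e.x : ℝ) - e.y + e.r ≤ 81 * 10 ^ 7 := by exact_mod_cast f2
  have g3 : -(e.x : ℝ) + e.y + e.r ≤ 81 * 10 ^ 7 := by exact_mod_cast f3
  have g4 : -(e.x : ℝ) - e.y + e.r ≤ 81 * 10 ^ 7 := by exact_mod_cast f4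
  have hz : ‖zc e.x e.y‖ + e.r ≤ 81 * 10 ^ 7 := by
    have h := Complex.norm_le_abs_re_add_abs_im (zc e.x e.y)
    rw [zc_re, zc_im] at h
    rcases abs_cases (e.x : ℝ) with ⟨hx, _⟩ | ⟨hx, _⟩ <;>
      rcases abs_cases (e.y : ℝ) with ⟨hy, _⟩ | ⟨hy, _⟩ <;> rw [hx, hy] at h <;> linarith
  have hq : ‖q‖ ≤ 8.1 / 10 ^ 6 := by
    have h4 : ‖10 ^ 14 * q‖ ≤ 81 * 10 ^ 7 := by
      calc ‖10 ^ 14 * q‖ = ‖(10 ^ 14 * q - zc e.x e.y) + zc e.x e.y‖ := by congr 1; ring
        _ ≤ _ := norm_add_le _ _
        _ ≤ _ := by linarith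
    rw [norm_mul] at h4
    have : ‖(10 ^ 14 : ℂ)‖ = 10 ^ 14 := by norm_num
    rw [this] at h4
    norm_num at h4 ⊢
    linarith
  rw [h2, norm_mul, norm_mul, norm_neg, norm_real, Real.norm_eq_abs]
  gcongr
  have : |2 / R0| ≤ 0.6127 := by
    rw [abs_of_pos (by norm_num [R0])]
    norm_num [R0]
  calc |2 / R0| * ‖q‖ ≤ 0.6127 * (8.1 / 10 ^ 6) := by gcongr
    _ ≤ _ := by norm_num

lemma im_ratio {w : ℝ} {q : ℂ}
    (h2 : Qinf' 13 w R0 = -((2 / R0 : ℝ) : ℂ) * q * Qinf 13 w R0) :
    (Qinf' 13 w R0 * conj (Qinf 13 w R0)).im = -(2 / R0 * q.im) * ‖Qinf 13 w R0‖ ^ 2 := by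
  have e : Qinf' 13 w R0 * conj (Qinf 13 w R0) =
      ((-(2 / R0) * ‖Qinf 13 w R0‖ ^ 2 : ℝ) : ℂ) * q := by
    rw [h2, mul_assoc, Complex.mul_conj, normSq_eq_norm_sq]
    push_cast; ring
  rw [e, im_ofReal_mul]; ring

theorem stateB : 1 / 10 ^ 7 * ‖Qinf 13 (w0 - 1 / 10 ^ 6) R0‖ ^ 2 ≤
    (Qinf' 13 (w0 - 1 / 10 ^ 6) R0 * conj (Qinf 13 (w0 - 1 / 10 ^ 6) R0)).im := by
  set w : ℝ := w0 - 1 / 10 ^ 6 with hw
  have hwI : w ∈ Icc (0.674 : ℝ) 0.675 := by
    constructor <;> norm_num [hw, w0]
  have hwd : |10 ^ 14 * w - ((67412740131400 : ℤ) : ℝ)| ≤ ((0 : ℤ) : ℝ) := by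
    have : 10 ^ 14 * w - ((67412740131400 : ℤ) : ℝ) = 0 := by
      rw [hw, w0]; push_cast; ring
    rw [this]; simp
  obtain ⟨e, he, hf⟩ := chk_sound (by norm_num) hwd LB (lev_start hwI) chkB
  obtain ⟨-, q, h2, h3⟩ := lev_zero he
  rw [im_ratio h2]
  simp only [finB, decide_eq_true_eq] at hf
  have g1 : (e.y : ℝ) + e.r ≤ -(17 * 10 ^ 6) := by exact_mod_cast hf
  have h4 := (Complex.abs_im_le_norm _).trans h3
  have e4 : (10 ^ 14 * q - zc e.x e.y).im = 10 ^ 14 * q.im - e.y := by
    rw [sub_im, zc_im]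
    have : (10 ^ 14 * q : ℂ) = ((10 ^ 14 : ℝ) : ℂ) * q := by push_cast; ring
    rw [this, im_ofReal_mul]
  rw [e4, abs_le] at h4
  have hqi : q.im ≤ -(1.7 / 10 ^ 7) := by norm_num at h4 g1 ⊢; linarith [h4.2]
  gcongr
  have : 0.6126 ≤ 2 / R0 := by norm_num [R0]
  nlinarith

theorem stateC : (Qinf' 13 (w0 + 1 / 10 ^ 6) R0 * conj (Qinf 13 (w0 + 1 / 10 ^ 6) R0)).im ≤
    -(1 / 10 ^ 7 * ‖Qinf 13 (w0 + 1 / 10 ^ 6) R0‖ ^ 2) := by
  set w : ℝ := w0 + 1 / 10 ^ 6 with hw
  have hwI : w ∈ Icc (0.674 : ℝ) 0.675 := by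
    constructor <;> norm_num [hw, w0]
  have hwd : |10 ^ 14 * w - ((67412940131400 : ℤ) : ℝ)| ≤ ((0 : ℤ) : ℝ) := by
    have : 10 ^ 14 * w - ((67412940131400 : ℤ) : ℝ) = 0 := by
      rw [hw, w0]; push_cast; ring
    rw [this]; simp
  obtain ⟨e, he, hf⟩ := chk_sound (by norm_num) hwd LC (lev_start hwI) chkC
  obtain ⟨-, q, h2, h3⟩ := lev_zero he
  rw [im_ratio h2]
  simp only [finC, decide_eq_true_eq] at hf
  have g1 : 17 * 10 ^ 6 ≤ (e.y : ℝ) - e.r := by exact_mod_cast hf
  have h4 := (Complex.abs_im_le_norm _).trans h3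
  have e4 : (10 ^ 14 * q - zc e.x e.y).im = 10 ^ 14 * q.im - e.y := by
    rw [sub_im, zc_im]
    have : (10 ^ 14 * q : ℂ) = ((10 ^ 14 : ℝ) : ℂ) * q := by push_cast; ring
    rw [this, im_ofReal_mul]
  rw [e4, abs_le] at h4
  have hqi : 1.7 / 10 ^ 7 ≤ q.im := by norm_num at h4 g1 ⊢; linarith [h4.1]
  rw [neg_mul, neg_le_neg_iff]
  gcongr
  have : 0.6126 ≤ 2 / R0 := by norm_num [R0]
  nlinarith

lemma ratio_re {x y : ℂ} (hy : y ≠ 0) : 0 < (x / y).re ↔ 0 < (x * conj y).re := by
  have h : x / y = (x * conj y) / ((normSq y : ℝ) : ℂ) := by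
    rw [← Complex.mul_conj]
    have : conj y ≠ 0 := by simpa using hy
    field_simp
  have hN : 0 < normSq y := normSq_pos.2 hy
  rw [h, Complex.div_ofReal_re]
  exact div_pos_iff_of_pos_right hN

lemma ratio_im {x y : ℂ} (hy : y ≠ 0) : 0 < (x / y).im ↔ 0 < (x * conj y).im := by
  have h : x / y = (x * conj y) / ((normSq y : ℝ) : ℂ) := by
    rw [← Complex.mul_conj]
    have : conj y ≠ 0 := by simpa using hy
    field_simp
  have hN : 0 < normSq y := normSq_pos.2 hy
  rw [h, Complex.div_ofReal_im]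
  exact div_pos_iff_of_pos_right hN

lemma ratio_re' {x y : ℂ} (hy : y ≠ 0) : (x / y).re < 0 ↔ (x * conj y).re < 0 := by
  have := ratio_re (x := -x) hy
  rw [neg_div, neg_mul, neg_re, neg_re, neg_pos, neg_pos] at this
  exact this

lemma ratio_im' {x y : ℂ} (hy : y ≠ 0) : (x / y).im < 0 ↔ (x * conj y).im < 0 := by
  have := ratio_im (x := -x) hy
  rw [neg_div, neg_mul, neg_im, neg_im, neg_pos, neg_pos] at this
  exact this

/-- `Qinf ≠ 0` on the box. -/
theorem Qinf_ne {w R : ℝ} (h : Box w R) : Qinf 13 w R ≠ 0 := by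
  obtain ⟨hw, hR⟩ := h
  obtain ⟨h1, h2⟩ := stateA (w := w) (by rw [w0]; exact hw)
  have hwI : w ∈ Icc (0.674 : ℝ) 0.675 := by
    have := abs_le.1 hw
    constructor <;> norm_num at this ⊢ <;> linarith [this.1, this.2]
  obtain ⟨-, h3⟩ := taylor_R hwI (R := R) (by rw [R0]; exact hR) h2
  intro h0
  rw [h0, zero_sub, norm_neg] at h3
  have : 0 < ‖Qinf 13 w R0‖ := norm_pos_iff.2 h1
  nlinarith

/-- **[I.P1]** sign data of `N = Qinf'/Qinf` on the faces of the box. -/
theorem sign_data :
    (∀ w R, Box w R → Qinf 13 w R ≠ 0) ∧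
    (∀ w ∈ Icc (w0 - 1 / 10 ^ 6) (w0 + 1 / 10 ^ 6),
      0 < (Qinf' 13 w (R0 - 1 / 10 ^ 5) / Qinf 13 w (R0 - 1 / 10 ^ 5)).re ∧
      (Qinf' 13 w (R0 + 1 / 10 ^ 5) / Qinf 13 w (R0 + 1 / 10 ^ 5)).re < 0) ∧
    (∀ R ∈ Icc (R0 - 1 / 10 ^ 5) (R0 + 1 / 10 ^ 5),
      0 < (Qinf' 13 (w0 - 1 / 10 ^ 6) R / Qinf 13 (w0 - 1 / 10 ^ 6) R).im ∧
      (Qinf' 13 (w0 + 1 / 10 ^ 6) R / Qinf 13 (w0 + 1 / 10 ^ 6) R).im < 0) := by
  have hbox : ∀ {w R : ℝ}, w ∈ Icc (w0 - 1 / 10 ^ 6) (w0 + 1 / 10 ^ 6) →
      R ∈ Icc (R0 - 1 / 10 ^ 5) (R0 + 1 / 10 ^ 5) → Box w R := by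
    intro w R hw hR
    constructor
    · rw [abs_le]; have h := hw; rw [w0] at h; constructor <;> linarith [h.1, h.2]
    · rw [abs_le]; have h := hR; rw [R0] at h; constructor <;> linarith [h.1, h.2]
  refine ⟨fun w R h => Qinf_ne h, ?_, ?_⟩
  · intro w hw
    have hwabs : |w - w0| ≤ 1 / 10 ^ 6 := by
      rw [abs_le]; constructor <;> linarith [hw.1, hw.2]
    have hwI : w ∈ Icc (0.674 : ℝ) 0.675 := by
      have h := hw; rw [w0] at h
      constructor <;> norm_num at h ⊢ <;> linarith [h.1, h.2]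
    obtain ⟨h1, h2⟩ := stateA hwabs
    have hF : 0 < ‖Qinf 13 w R0‖ := norm_pos_iff.2 h1
    have hre : |(Qinf' 13 w R0 * conj (Qinf 13 w R0)).re| ≤ 5 / 10 ^ 6 * ‖Qinf 13 w R0‖ ^ 2 := by
      refine (Complex.abs_re_le_norm _).trans ?_
      rw [norm_mul, RCLike.norm_conj, sq, ← mul_assoc]
      gcongr
    have key : ∀ s : ℝ, |s| ≤ 1 / 10 ^ 5 →
        |(Qinf' 13 w (R0 + s) * conj (Qinf 13 w (R0 + s))).re -
          ((Qinf' 13 w R0 * conj (Qinf 13 w R0)).re - w * s * ‖Qinf 13 w R0‖ ^ 2)| ≤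
          1 / 10 ^ 9 * ‖Qinf 13 w R0‖ ^ 2 := by
      intro s hs
      obtain ⟨t1, -⟩ := taylor_R hwI (R := R0 + s) (by simpa using hs) h2
      have t2 := (Complex.abs_re_le_norm _).trans t1
      have e : (Qinf' 13 w R0 * conj (Qinf 13 w R0) -
          w * (((R0 + s : ℝ) : ℂ) - R0) * Qinf 13 w R0 * conj (Qinf 13 w R0)).re =
          (Qinf' 13 w R0 * conj (Qinf 13 w R0)).re - w * s * ‖Qinf 13 w R0‖ ^ 2 := by
        have : (w : ℂ) * (((R0 + s : ℝ) : ℂ) - R0) * Qinf 13 w R0 * conj (Qinf 13 w R0) =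
            ((w * s * ‖Qinf 13 w R0‖ ^ 2 : ℝ) : ℂ) := by
          rw [mul_assoc _ (Qinf 13 w R0), Complex.mul_conj, normSq_eq_norm_sq]; push_cast; ring
        rw [this, sub_re, ofReal_re]
      rw [sub_re, e] at t2
      exact t2
    have hF2 : 0 < ‖Qinf 13 w R0‖ ^ 2 := by positivity
    constructor
    · rw [ratio_re (Qinf_ne (hbox hw ⟨by linarith, by linarith⟩))]
      have hk := key (-(1 / 10 ^ 5)) (by rw [abs_neg, abs_of_pos] <;> norm_num)
      rw [← sub_eq_add_neg, abs_le] at hk
      have h5 := (abs_le.1 hre).1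
      have hw1 := hwI.1
      nlinarith [hk.1]
    · rw [ratio_re' (Qinf_ne (hbox hw ⟨by linarith, by linarith⟩))]
      have hk := key (1 / 10 ^ 5) (by rw [abs_of_pos]; norm_num)
      rw [abs_le] at hk
      have h5 := (abs_le.1 hre).2
      have hw1 := hwI.1
      nlinarith [hk.2]
  · intro R hR
    have hRabs : |R - R0| ≤ 1 / 10 ^ 5 := by
      rw [abs_le]; constructor <;> linarith [hR.1, hR.2]
    have key : ∀ w : ℝ, |w - w0| ≤ 1 / 10 ^ 6 →
        0 < ‖Qinf 13 w R0‖ ∧ |(Qinf' 13 w R * conj (Qinf 13 w R)).im -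
          (Qinf' 13 w R0 * conj (Qinf 13 w R0)).im| ≤ 1 / 10 ^ 9 * ‖Qinf 13 w R0‖ ^ 2 := by
      intro w hw
      obtain ⟨h1, h2⟩ := stateA hw
      have hwI : w ∈ Icc (0.674 : ℝ) 0.675 := by
        have h := abs_le.1 hw; rw [w0] at h
        constructor <;> norm_num at h ⊢ <;> linarith [h.1, h.2]
      obtain ⟨t1, -⟩ := taylor_R hwI (R := R) hRabs h2
      have t2 := (Complex.abs_im_le_norm _).trans t1
      have e : (Qinf' 13 w R0 * conj (Qinf 13 w R0) -
          w * ((R : ℂ) - R0) * Qinf 13 w R0 * conj (Qinf 13 w R0)).im =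
          (Qinf' 13 w R0 * conj (Qinf 13 w R0)).im := by
        have : (w : ℂ) * ((R : ℂ) - R0) * Qinf 13 w R0 * conj (Qinf 13 w R0) =
            ((w * (R - R0) * ‖Qinf 13 w R0‖ ^ 2 : ℝ) : ℂ) := by
          rw [mul_assoc _ (Qinf 13 w R0), Complex.mul_conj, normSq_eq_norm_sq]; push_cast; ring
        rw [this, sub_im, ofReal_im, sub_zero]
      rw [sub_im, e] at t2
      exact ⟨norm_pos_iff.2 h1, t2⟩
    constructor
    · rw [ratio_im (Qinf_ne (hbox ⟨le_refl _, by linarith⟩ hR))]
      obtain ⟨hF, hk⟩ := key (w0 - 1 / 10 ^ 6) (by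
        rw [sub_sub_cancel_left, abs_neg, abs_of_pos] <;> norm_num)
      have hB := stateB
      have hF2 : 0 < ‖Qinf 13 (w0 - 1 / 10 ^ 6) R0‖ ^ 2 := by positivity
      rw [abs_le] at hk
      nlinarith [hk.1]
    · rw [ratio_im' (Qinf_ne (hbox ⟨by linarith, le_refl _⟩ hR))]
      obtain ⟨hF, hk⟩ := key (w0 + 1 / 10 ^ 6) (by
        rw [add_sub_cancel_left, abs_of_pos]; norm_num)
      have hC := stateC
      have hF2 : 0 < ‖Qinf 13 (w0 + 1 / 10 ^ 6) R0‖ ^ 2 := by positivity
      rw [abs_le] at hk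
      nlinarith [hk.2]

end Vale.Agent.P139.H312
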