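import Vale.Agent.P139.H312.I3

/-!
# [I.P1], part 1: the sign data of `N = Qinf'/Qinf` on the faces of the box from data at `R = R0`

`f = Qinf 13 w` solves `f'' = -(12/r + i r/2) f' - w f`; over `|r - R0| ≤ 10⁻⁵` we have
`f' conj f = f0' conj f0 - w (r - R0) |f0|² + O(10⁻⁹) |f0|²`.
-/

noncomputable section

open MeasureTheory Set Filter Topology Complex ComplexConjugate

namespace Vale.Agent.P139.H312

open Vale.Agent.P139.KU

/-- centre of the box -/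
def w0 : ℝ := 674128401314 / 10 ^ 12
/-- centre of the box -/
def R0 : ℝ := 3264331003852 / 10 ^ 12

lemma hasDerivAt_Qinf (w : ℝ) {r : ℝ} (hr : 0 < r) :
    HasDerivAt (Qinf 13 w) (Qinf' 13 w r) r :=
  hasDerivAt_F0 (by norm_num) hr

lemma hasDerivAt_Qinf' (w : ℝ) {r : ℝ} (hr : 0 < r) :
    HasDerivAt (Qinf' 13 w) (-((12 / r + I * r / 2) * Qinf' 13 w r) - w * Qinf 13 w r) r := by
  have h := hasDerivAt_dG (a := aE 0 w 0) (bE 13 0) (by simp [aE]) hr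
  have e1 : (2 * bE 13 0 - 1 : ℂ) = 12 := by unfold bE; push_cast; ring
  have e2 : I * aE 0 w 0 = w := by
    unfold aE
    push_cast
    linear_combination (-(w : ℂ)) * Complex.I_mul_I
  rw [e1, e2] at h
  exact h

/-- The `R` direction: quantitative Taylor expansion. -/
theorem taylor_R {w : ℝ} (hw : w ∈ Icc (0.674 : ℝ) 0.675) {R : ℝ}
    (hR : |R - R0| ≤ 1 / 10 ^ 5) (hN : ‖Qinf' 13 w R0‖ ≤ 5 / 10 ^ 6 * ‖Qinf 13 w R0‖) :
    ‖Qinf' 13 w R * conj (Qinf 13 w R) - (Qinf' 13 w R0 * conj (Qinf 13 w R0) -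
      w * (R - R0) * Qinf 13 w R0 * conj (Qinf 13 w R0))‖ ≤ 1 / 10 ^ 9 * ‖Qinf 13 w R0‖ ^ 2 ∧
    ‖Qinf 13 w R - Qinf 13 w R0‖ ≤ 1 / 10 ^ 9 * ‖Qinf 13 w R0‖ := by
  set K : Set ℝ := Icc (R0 - 1 / 10 ^ 5) (R0 + 1 / 10 ^ 5) with hK
  have hR0 : R0 ∈ K := by constructor <;> norm_num [R0]
  have hRK : R ∈ K := by
    rw [abs_le] at hR
    constructor <;> linarith
  have hpos : ∀ r ∈ K, 3.264 < r ∧ r < 3.265 := by
    intro r hr
    have h1 := hr.1
    have h2 := hr.2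
    norm_num [R0] at h1 h2
    constructor <;> linarith
  have hKc : IsCompact K := isCompact_Icc
  have hconv : Convex ℝ K := convex_Icc _ _
  have hKne : K.Nonempty := ⟨R0, hR0⟩
  have hdf : ∀ r ∈ K, HasDerivAt (Qinf 13 w) (Qinf' 13 w r) r := fun r hr =>
    hasDerivAt_Qinf w (by linarith [(hpos r hr).1])
  have hdf' : ∀ r ∈ K, HasDerivAt (Qinf' 13 w)
      (-((12 / r + I * r / 2) * Qinf' 13 w r) - w * Qinf 13 w r) r := fun r hr =>
    hasDerivAt_Qinf' w (by linarith [(hpos r hr).1])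
  have hcf : ContinuousOn (fun r => ‖Qinf 13 w r‖) K := fun r hr =>
    (hdf r hr).continuousAt.norm.continuousWithinAt
  have hcf' : ContinuousOn (fun r => ‖Qinf' 13 w r‖) K := fun r hr =>
    (hdf' r hr).continuousAt.norm.continuousWithinAt
  obtain ⟨x, hx, hxM⟩ := hKc.exists_isMaxOn hKne hcf
  obtain ⟨y, hy, hyM⟩ := hKc.exists_isMaxOn hKne hcf'
  set M := ‖Qinf 13 w x‖ with hMdef
  set M1 := ‖Qinf' 13 w y‖ with hM1def
  have hM : ∀ r ∈ K, ‖Qinf 13 w r‖ ≤ M := fun r hr => hxM hr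
  have hM1 : ∀ r ∈ K, ‖Qinf' 13 w r‖ ≤ M1 := fun r hr => hyM hr
  have hM0 : 0 ≤ M := norm_nonneg _
  have hM10 : 0 ≤ M1 := norm_nonneg _
  set F := ‖Qinf 13 w R0‖ with hF
  have hF0 : 0 ≤ F := norm_nonneg _
  have hdist : ∀ r ∈ K, |r - R0| ≤ 1 / 10 ^ 5 := by
    intro r hr
    rw [abs_le]
    constructor <;> linarith [hr.1, hr.2]
  have hcoef : ∀ r ∈ K, ‖(12 / r + I * r / 2 : ℂ)‖ ≤ 5.4 := by
    intro r hr
    obtain ⟨h1, h2⟩ := hpos r hr
    have hr0 : 0 < r := by linarith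
    calc ‖(12 / r + I * r / 2 : ℂ)‖ ≤ ‖(12 / r : ℂ)‖ + ‖(I * r / 2 : ℂ)‖ := norm_add_le _ _
      _ = 12 / r + r / 2 := by
        rw [norm_div, norm_div, norm_mul, norm_I, one_mul, norm_real, Real.norm_eq_abs,
          abs_of_pos hr0]
        norm_num
      _ ≤ 12 / 3.264 + 3.265 / 2 := by
        gcongr
      _ ≤ 5.4 := by norm_num
  have hwabs : ‖(w : ℂ)‖ ≤ 0.675 := by
    rw [norm_real, Real.norm_eq_abs, abs_of_pos (by linarith [hw.1])]; exact hw.2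
  -- first bounds
  have hA : ∀ r ∈ K, ‖Qinf 13 w r - Qinf 13 w R0‖ ≤ M1 * (1 / 10 ^ 5) := by
    intro r hr
    have := hconv.norm_image_sub_le_of_norm_hasDerivWithin_le (f := Qinf 13 w)
      (f' := fun r => Qinf' 13 w r) (C := M1)
      (fun z hz => (hdf z hz).hasDerivWithinAt) hM1 hR0 hr
    refine this.trans ?_
    rw [Real.norm_eq_abs]
    exact mul_le_mul_of_nonneg_left (hdist r hr) hM10
  have hdd : ∀ r ∈ K, ‖-((12 / r + I * r / 2) * Qinf' 13 w r) - w * Qinf 13 w r‖ ≤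
      5.4 * M1 + 0.675 * M := by
    intro r hr
    calc ‖-((12 / r + I * r / 2) * Qinf' 13 w r) - w * Qinf 13 w r‖
        ≤ ‖-((12 / r + I * r / 2) * Qinf' 13 w r)‖ + ‖(w : ℂ) * Qinf 13 w r‖ := norm_sub_le _ _
      _ = ‖(12 / r + I * r / 2 : ℂ)‖ * ‖Qinf' 13 w r‖ + ‖(w : ℂ)‖ * ‖Qinf 13 w r‖ := by
        rw [norm_neg, norm_mul, norm_mul]
      _ ≤ _ := by
        have := hcoef r hr
        have := hM r hr
        have := hM1 r hr
        gcongr
  have hB : ∀ r ∈ K, ‖Qinf' 13 w r - Qinf' 13 w R0‖ ≤ (5.4 * M1 + 0.675 * M) * (1 / 10 ^ 5) := by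
    intro r hr
    have := hconv.norm_image_sub_le_of_norm_hasDerivWithin_le (f := Qinf' 13 w)
      (f' := fun r => -((12 / r + I * r / 2) * Qinf' 13 w r) - w * Qinf 13 w r)
      (C := 5.4 * M1 + 0.675 * M)
      (fun z hz => (hdf' z hz).hasDerivWithinAt) hdd hR0 hr
    refine this.trans ?_
    rw [Real.norm_eq_abs]
    exact mul_le_mul_of_nonneg_left (hdist r hr) (by positivity)
  have hMle : M ≤ F + M1 * (1 / 10 ^ 5) := by
    have h1 := hA x hx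
    have h2 := norm_sub_norm_le (Qinf 13 w x) (Qinf 13 w R0)
    linarith
  have hM1le : M1 ≤ 5 / 10 ^ 6 * F + (5.4 * M1 + 0.675 * M) * (1 / 10 ^ 5) := by
    have h1 := hB y hy
    have h2 := norm_sub_norm_le (Qinf' 13 w y) (Qinf' 13 w R0)
    linarith
  have hM1' : M1 ≤ 1.2 / 10 ^ 5 * F := by nlinarith
  -- second expansion
  have hC : ‖(Qinf' 13 w R + w * (R - R0) * Qinf 13 w R0) - Qinf' 13 w R0‖ ≤
      7 / 10 ^ 10 * F := by
    have hdh : ∀ r ∈ K, HasDerivAt (fun r : ℝ => Qinf' 13 w r + w * (r - R0) * Qinf 13 w R0)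
        (-((12 / r + I * r / 2) * Qinf' 13 w r) - w * (Qinf 13 w r - Qinf 13 w R0)) r := by
      intro r hr
      have h1 : HasDerivAt (fun r : ℝ => (w : ℂ) * ((r : ℂ) - R0) * Qinf 13 w R0)
          (w * 1 * Qinf 13 w R0) r :=
        (((Complex.ofRealCLM.hasDerivAt (x := r)).sub_const (R0 : ℂ)).const_mul (w : ℂ)).mul_const _
      have h := (hdf' r hr).add h1
      refine h.congr_deriv ?_
      ring
    have hbd : ∀ r ∈ K, ‖-((12 / r + I * r / 2) * Qinf' 13 w r) -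
        w * (Qinf 13 w r - Qinf 13 w R0)‖ ≤ 7 / 10 ^ 5 * F := by
      intro r hr
      calc ‖-((12 / r + I * r / 2) * Qinf' 13 w r) - w * (Qinf 13 w r - Qinf 13 w R0)‖
          ≤ ‖-((12 / r + I * r / 2) * Qinf' 13 w r)‖ + ‖(w : ℂ) * (Qinf 13 w r - Qinf 13 w R0)‖ :=
            norm_sub_le _ _
        _ = ‖(12 / r + I * r / 2 : ℂ)‖ * ‖Qinf' 13 w r‖ +
            ‖(w : ℂ)‖ * ‖Qinf 13 w r - Qinf 13 w R0‖ := by
          rw [norm_neg, norm_mul, norm_mul]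
        _ ≤ 5.4 * M1 + 0.675 * (M1 * (1 / 10 ^ 5)) := by
          have := hcoef r hr
          have := hA r hr
          have := hM1 r hr
          gcongr
        _ ≤ 7 / 10 ^ 5 * F := by nlinarith
    have := hconv.norm_image_sub_le_of_norm_hasDerivWithin_le
      (f := fun r : ℝ => Qinf' 13 w r + w * (r - R0) * Qinf 13 w R0)
      (C := 7 / 10 ^ 5 * F)
      (fun z hz => (hdh z hz).hasDerivWithinAt) hbd hR0 hRK
    simp only [sub_self, mul_zero, zero_mul, add_zero] at this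
    refine this.trans ?_
    rw [Real.norm_eq_abs]
    calc 7 / 10 ^ 5 * F * |R - R0| ≤ 7 / 10 ^ 5 * F * (1 / 10 ^ 5) := by gcongr
      _ = _ := by ring
  have hD := hA R hRK
  constructor
  · have e : Qinf' 13 w R * conj (Qinf 13 w R) - (Qinf' 13 w R0 * conj (Qinf 13 w R0) -
        w * (R - R0) * Qinf 13 w R0 * conj (Qinf 13 w R0)) =
        Qinf' 13 w R * conj (Qinf 13 w R - Qinf 13 w R0) +
        ((Qinf' 13 w R + w * (R - R0) * Qinf 13 w R0) - Qinf' 13 w R0) *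
          conj (Qinf 13 w R0) := by
      rw [map_sub]; ring
    rw [e]
    calc _ ≤ ‖Qinf' 13 w R * conj (Qinf 13 w R - Qinf 13 w R0)‖ +
        ‖((Qinf' 13 w R + w * (R - R0) * Qinf 13 w R0) - Qinf' 13 w R0) *
          conj (Qinf 13 w R0)‖ := norm_add_le _ _
      _ = ‖Qinf' 13 w R‖ * ‖Qinf 13 w R - Qinf 13 w R0‖ +
        ‖(Qinf' 13 w R + w * (R - R0) * Qinf 13 w R0) - Qinf' 13 w R0‖ * F := by
        rw [norm_mul, norm_mul, RCLike.norm_conj, RCLike.norm_conj]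
      _ ≤ M1 * (M1 * (1 / 10 ^ 5)) + 7 / 10 ^ 10 * F * F := by
        have := hM1 R hRK
        gcongr
      _ ≤ (1.2 / 10 ^ 5 * F) * ((1.2 / 10 ^ 5 * F) * (1 / 10 ^ 5)) + 7 / 10 ^ 10 * F * F := by
        gcongr
      _ ≤ 1 / 10 ^ 9 * F ^ 2 := by nlinarith [mul_nonneg hF0 hF0]
  · refine hD.trans ?_
    nlinarith

end Vale.Agent.P139.H312
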