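import Vale.Agent.P139.H312.Half

/-!
# `l = 0`, `Im λ - w ≥ 6`: flux positivity by four half steps and one backward step
-/

noncomputable section

open MeasureTheory Set Filter Topology Complex ComplexConjugate

namespace Vale.Agent.P139.H312

open Vale.Agent.P139.KU
open Vale.Agent.P139.H66 (q)

lemma norm_le_add {z : ℂ} {r K : ℝ} (hr : 0 ≤ r + K) (h : z.re ^ 2 + z.im ^ 2 ≤ (r + K) ^ 2) :
    ‖z‖ ≤ r + K := by
  apply le_of_sq_le_sq _ hr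
  rw [← normSq_eq_norm_sq, normSq_apply]
  nlinarith

/-- Quantitative half step for `Im a ≥ 6`. -/
theorem half_re {a c : ℂ} {b : ℝ} (hb : a + c + 1 = (b : ℂ)) (ha : 0 < a.re) {ρ : ℝ} (hρ : 0 < ρ)
    {X : ℝ} (hX : 0 < X) (hJ : J a c ρ ≠ 0) (hq : X ≤ (q a c ρ).re) {B : ℝ}
    (hB1 : -B ≤ b - a.re) (hB2 : b - a.re ≤ B) (hM : 6 ≤ a.im) :
    J a (c + 1) ρ ≠ 0 ∧ b - ρ * B ^ 2 / (24 * X) ≤ (q a (c + 1) ρ).re := by
  obtain ⟨h1, h2⟩ := half_step ha hρ hJ (lt_of_lt_of_le hX hq)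
  refine ⟨h1, ?_⟩
  have hc : c + 1 = (b : ℂ) - a := by rw [← hb]; ring
  have hu : X ≤ (q a c ρ - I * ρ).re := by
    have : (q a c ρ - I * ρ).re = (q a c ρ).re := by simp
    rw [this]; exact hq
  have h3 := re_div_ge (h := I * ρ * (c + 1)) hX hu
  have hre : (I * ρ * (c + 1)).re = ρ * a.im := by
    rw [hc]; simp
  have him : (I * ρ * (c + 1)).im = ρ * (b - a.re) := by
    rw [hc]; simp
  have hn : ‖I * ρ * (c + 1)‖ ≤ ρ * a.im + ρ * B ^ 2 / 12 := by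
    apply norm_le_add (by positivity)
    rw [hre, him]
    have e : (ρ * a.im + ρ * B ^ 2 / 12) ^ 2 - ((ρ * a.im) ^ 2 + (ρ * (b - a.re)) ^ 2) =
        ρ ^ 2 * (a.im * B ^ 2 / 6 + B ^ 4 / 144 - (b - a.re) ^ 2) := by ring
    have h5 : (b - a.re) ^ 2 ≤ B ^ 2 := by nlinarith
    have h6 : B ^ 2 ≤ a.im * B ^ 2 / 6 := by nlinarith [sq_nonneg B]
    have h7 : 0 ≤ B ^ 4 / 144 := by positivity
    have h8 : 0 ≤ ρ ^ 2 * (a.im * B ^ 2 / 6 + B ^ 4 / 144 - (b - a.re) ^ 2) := by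
      apply mul_nonneg (sq_nonneg _); linarith
    linarith
  rw [h2, hb, add_re, ofReal_re]
  have h9 : -(ρ * B ^ 2 / (24 * X)) ≤ ((I * ρ * (c + 1)).re - ‖I * ρ * (c + 1)‖) / (2 * X) := by
    rw [hre, le_div_iff₀ (by positivity)]
    have : -(ρ * B ^ 2 / (24 * X)) * (2 * X) = -(ρ * B ^ 2 / 12) := by field_simp; ring
    rw [this]; linarith
  linarith

/-- The ratio at `(a + 1, b = 11/2)`. -/
theorem re_q_55 {a : ℂ} (h0 : 0 ≤ a.re) (h1 : a.re ≤ 11 / 4) (hM : 6 ≤ a.im) {ρ : ℝ}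
    (hρ : 0 < ρ) (hρ2 : ρ ≤ 2665 / 1000) :
    J (a + 1) (7 / 2 - a) ρ ≠ 0 ∧ 4 ≤ (q (a + 1) (7 / 2 - a) ρ).re := by
  have har : (a + 1).re = a.re + 1 := by simp
  have hai : (a + 1).im = a.im := by simp
  have ha : 0 < (a + 1).re := by rw [har]; linarith
  have b0 : (a + 1) + (1 / 2 - a) + 1 = ((5 / 2 : ℝ) : ℂ) := by push_cast; ring
  have b1 : (a + 1) + (1 / 2 - a + 1) + 1 = ((7 / 2 : ℝ) : ℂ) := by push_cast; ring
  have b2 : (a + 1) + (1 / 2 - a + 1 + 1) + 1 = ((9 / 2 : ℝ) : ℂ) := by push_cast; ring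
  have J0 := H66.J_ne_zero b0 ha (by rw [har]; linarith) hρ
  have q0 := H66.re_q_ge b0 ha (by rw [har]; linarith) hρ
  obtain ⟨J1, q1⟩ := half_re b0 ha hρ (X := 3 / 4) (by norm_num) J0 (by linarith) (B := 3 / 2)
    (by rw [har]; linarith) (by rw [har]; linarith) (by rw [hai]; exact hM)
  obtain ⟨J2, q2⟩ := half_re b1 ha hρ (X := 21 / 10) (by norm_num) J1 (by
    refine le_trans ?_ q1; norm_num; linarith) (B := 5 / 2)
    (by rw [har]; linarith) (by rw [har]; linarith) (by rw [hai]; exact hM)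
  obtain ⟨J3, q3⟩ := half_re b2 ha hρ (X := 31 / 10) (by norm_num) J2 (by
    refine le_trans ?_ q2; norm_num; linarith) (B := 7 / 2)
    (by rw [har]; linarith) (by rw [har]; linarith) (by rw [hai]; exact hM)
  have e : (1 / 2 - a + 1 + 1 + 1 : ℂ) = 7 / 2 - a := by ring
  rw [e] at J3 q3
  exact ⟨J3, by refine le_trans ?_ q3; norm_num; linarith⟩

lemma key_lin {σ M ρ : ℝ} (hM : 6 ≤ M) (hρ2 : ρ ≤ 2665 / 1000) :
    0 < 11 / 2 * (σ ^ 2 + M ^ 2) - 11 / 2 * ρ * M - 36 / 5 * ρ * M / 8 := by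
  have h1 : ρ * M ≤ 2665 / 1000 * M := mul_le_mul_of_nonneg_right hρ2 (by linarith)
  have h2 : 6 * M ≤ M ^ 2 := by nlinarith
  have h3 := sq_nonneg σ
  linarith

lemma key_sq {σ M ρ : ℝ} (h0 : 0 ≤ σ) (h1 : σ ≤ 11 / 4) (hM : 6 ≤ M) :
    (ρ * M * (σ ^ 2 + M ^ 2 + 99 / 4)) ^ 2 +
      (ρ * ((11 / 2 * σ + σ ^ 2) * (9 / 2 - σ) - M ^ 2 * (1 + σ))) ^ 2 ≤
    (ρ * M * (σ ^ 2 + M ^ 2 + 99 / 4) + 36 / 5 * ρ * M) ^ 2 := by
  have hM2 : 36 ≤ M ^ 2 := by nlinarith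
  obtain ⟨s, hs⟩ : ∃ s : ℝ, s = (11 / 2 * σ + σ ^ 2) * (9 / 2 - σ) - M ^ 2 * (1 + σ) := ⟨_, rfl⟩
  rw [← hs]
  have t1 : (11 / 2 * σ + σ ^ 2) * (9 / 2 - σ) ≤ 36 * (1 + σ) := by nlinarith [sq_nonneg σ]
  have t2 : 0 ≤ (11 / 2 * σ + σ ^ 2) * (9 / 2 - σ) := by
    apply mul_nonneg
    · nlinarith
    · linarith
  have t3 : 36 * (1 + σ) ≤ M ^ 2 * (1 + σ) := mul_le_mul_of_nonneg_right hM2 (by linarith)
  have t4 : M ^ 2 * (1 + σ) ≤ M ^ 2 * (15 / 4) :=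
    mul_le_mul_of_nonneg_left (by linarith) (sq_nonneg M)
  have s1 : s ≤ 0 := by linarith
  have s2 : -(M ^ 2 * (15 / 4)) ≤ s := by linarith
  have s3 : s ^ 2 ≤ (M ^ 2 * (15 / 4)) ^ 2 := by
    apply sq_le_sq'
    · exact s2
    · linarith [mul_nonneg (sq_nonneg M) (by norm_num : (0 : ℝ) ≤ 15 / 4)]
  have e : (ρ * M * (σ ^ 2 + M ^ 2 + 99 / 4) + 36 / 5 * ρ * M) ^ 2 -
      ((ρ * M * (σ ^ 2 + M ^ 2 + 99 / 4)) ^ 2 + (ρ * s) ^ 2) =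
      ρ ^ 2 * (M ^ 2 * (72 / 5) * (σ ^ 2 + M ^ 2 + 99 / 4) + (36 / 5) ^ 2 * M ^ 2 - s ^ 2) := by
    ring
  have e2 : 0 ≤ M ^ 2 * (72 / 5) * (σ ^ 2 + M ^ 2 + 99 / 4) + (36 / 5) ^ 2 * M ^ 2 - s ^ 2 := by
    have a1 : 0 ≤ M ^ 2 * σ ^ 2 := by positivity
    have a2 : 0 ≤ M ^ 2 * M ^ 2 := by positivity
    have a3 : 0 ≤ M ^ 2 := sq_nonneg M
    have a4 : M ^ 2 * (72 / 5) * (σ ^ 2 + M ^ 2 + 99 / 4) = 72 / 5 * (M ^ 2 * σ ^ 2) +
        72 / 5 * (M ^ 2 * M ^ 2) + 72 / 5 * (99 / 4) * M ^ 2 := by ring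
    have a5 : (M ^ 2 * (15 / 4)) ^ 2 = 225 / 16 * (M ^ 2 * M ^ 2) := by ring
    rw [a4]
    rw [a5] at s3
    linarith
  have := mul_nonneg (sq_nonneg ρ) e2
  linarith

/-- The final estimate. -/
lemma final_pos {a u : ℂ} (h0 : 0 ≤ a.re) (h1 : a.re ≤ 11 / 4) (hM : 6 ≤ a.im) {ρ : ℝ}
    (hρ : 0 < ρ) (hρ2 : ρ ≤ 2665 / 1000) (hu : 4 ≤ u.re) {T : ℂ}
    (hT : T = -(I * ρ) + I * ρ * (9 / 2 - a) / u) :
    0 < (a * (T + 11 / 2) * conj (T + a)).re := by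
  set σ := a.re with hσ
  set M := a.im with hMd
  set Hc : ℂ := (11 / 2 * conj a + ((normSq a : ℝ) : ℂ)) * (I * ρ * (9 / 2 - a)) with hHc
  have hn : normSq a = σ ^ 2 + M ^ 2 := by rw [normSq_apply]; ring
  have hre : Hc.re = ρ * M * (σ ^ 2 + M ^ 2 + 99 / 4) := by
    rw [hHc, hn]
    simp only [mul_re, mul_im, add_re, add_im, sub_re, sub_im, conj_re, conj_im, ofReal_re,
      ofReal_im, I_re, I_im, ← hσ, ← hMd, div_ofNat_re, div_ofNat_im, re_ofNat, im_ofNat]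
    ring
  have him : Hc.im = ρ * ((11 / 2 * σ + σ ^ 2) * (9 / 2 - σ) - M ^ 2 * (1 + σ)) := by
    rw [hHc, hn]
    simp only [mul_re, mul_im, add_re, add_im, sub_re, sub_im, conj_re, conj_im, ofReal_re,
      ofReal_im, I_re, I_im, ← hσ, ← hMd, div_ofNat_re, div_ofNat_im, re_ofNat, im_ofNat]
    ring
  have hM0 : 0 < M := by linarith
  have hHn : ‖Hc‖ ≤ ρ * M * (σ ^ 2 + M ^ 2 + 99 / 4) + 36 / 5 * ρ * M := by
    apply norm_le_add (by positivity)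
    rw [hre, him]
    exact key_sq h0 h1 hM
  have h3 := re_div_ge (h := Hc) (by norm_num : (0 : ℝ) < 4) hu
  have h4 : -(36 / 5 * ρ * M / 8) ≤ (Hc / u).re := by
    refine le_trans ?_ h3
    rw [hre]
    linarith
  have e1 : a * (T + 11 / 2) * conj (T + a) =
      ((11 / 2 * normSq a : ℝ) : ℂ) + 11 / 2 * (a * conj T) + a * ((normSq T : ℝ) : ℂ) +
        ((normSq a : ℝ) : ℂ) * T := by
    push_cast
    rw [normSq_eq_conj_mul_self, normSq_eq_conj_mul_self, map_add]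
    ring
  have e2 : (11 / 2 * (a * conj T)).re = (11 / 2 * (conj a * T)).re := by
    simp only [mul_re, mul_im, conj_re, conj_im, div_ofNat_re, div_ofNat_im, re_ofNat, im_ofNat]
    ring
  have e3 : (11 / 2 * (conj a * T)).re + (((normSq a : ℝ) : ℂ) * T).re =
      -(11 / 2 * ρ * M) + (Hc / u).re := by
    have : 11 / 2 * (conj a * T) + ((normSq a : ℝ) : ℂ) * T =
        -((11 / 2 * conj a + ((normSq a : ℝ) : ℂ)) * (I * ρ)) + Hc / u := by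
      rw [hHc, hT]; ring
    rw [← add_re, this, add_re, neg_re]
    congr 1
    simp only [mul_re, mul_im, add_re, add_im, conj_re, conj_im, ofReal_re,
      ofReal_im, I_re, I_im, ← hσ, ← hMd, div_ofNat_re, div_ofNat_im, re_ofNat, im_ofNat]
    ring
  have e4 : (a * ((normSq T : ℝ) : ℂ)).re = σ * normSq T := by
    rw [re_mul_ofReal]
  rw [e1, add_re, add_re, add_re, ofReal_re, e2, e4, hn]
  have hT0 : 0 ≤ σ * normSq T := mul_nonneg h0 (normSq_nonneg _)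
  have key := key_lin (σ := σ) hM hρ2
  rw [hn] at e3
  linarith

/-- **`l = 0`, `Im λ - w ≥ 6`.** -/
theorem fl_tail0 {w R : ℝ} {lam : ℂ} (hR : 0 < R) (hρ2 : R ^ 2 / 4 ≤ 2665 / 1000)
    (h0 : 0 ≤ lam.re) (hM : 6 ≤ lam.im - w) : Fl 0 w R lam := by
  by_cases h1 : 11 / 4 ≤ lam.re
  · exact Fl_right hR h1
  push Not at h1
  have hρ : 0 < R ^ 2 / 4 := by positivity
  have hζ : 0 < ((R ^ 2 / 4 : ℝ) : ℂ).re := by rw [ofReal_re]; exact hρ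
  obtain ⟨a, haeq⟩ : ∃ a : ℂ, a = aE 0 w lam := ⟨_, rfl⟩
  have har : a.re = lam.re := by rw [haeq, aE_re]; simp
  have hai : a.im = lam.im - w := by rw [haeq, aE]; simp
  have hb : bE 13 0 = 13 / 2 := by unfold bE; push_cast; ring
  rw [Fl_iff hR, ← haeq, hb]
  obtain ⟨J3, q3⟩ := re_q_55 (a := a) (by rw [har]; exact h0) (by rw [har]; exact h1.le)
    (by rw [hai]; exact hM) hρ hρ2
  have ha1 : 0 < (a + 1).re := by rw [add_re, har]; simp; linarith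
  obtain ⟨J4, q4⟩ := half_step ha1 hρ J3 (by linarith)
  have ec : (7 / 2 - a + 1 : ℂ) = 13 / 2 - (a + 1) - 1 := by ring
  rw [ec] at J4 q4
  have hP := P_eq_q (13 / 2) ha1 hρ J4
  have hS1 : S (a + 1) (13 / 2) ((R ^ 2 / 4 : ℝ) : ℂ) ≠ 0 := by
    rw [S_eq_of_pos _ ha1 hζ]
    exact div_ne_zero J4 (Complex.Gamma_ne_zero_of_re_pos ha1)
  have s1 := S_lad (a := a) (13 / 2) (by rw [har]; linarith) hζ
  have s2 := P_lad (a := a) (13 / 2) (by rw [har]; linarith) hζ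
  rw [hP] at s1 s2
  obtain ⟨u, hud⟩ : ∃ u : ℂ, u = q (a + 1) (7 / 2 - a) (R ^ 2 / 4) - I * ((R ^ 2 / 4 : ℝ) : ℂ) :=
    ⟨_, rfl⟩
  obtain ⟨T, hTd⟩ : ∃ T : ℂ, T = -(I * ((R ^ 2 / 4 : ℝ) : ℂ)) +
      I * ((R ^ 2 / 4 : ℝ) : ℂ) * (9 / 2 - a) / u := ⟨_, rfl⟩
  rw [← hud] at q4
  have hq4 : q (a + 1) (13 / 2 - (a + 1) - 1) (R ^ 2 / 4) = T + 11 / 2 +
      I * ((R ^ 2 / 4 : ℝ) : ℂ) := by
    rw [q4, hTd]; ring
  rw [hq4] at s1 s2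
  have s1' : S a (13 / 2) ((R ^ 2 / 4 : ℝ) : ℂ) =
      I * S (a + 1) (13 / 2) ((R ^ 2 / 4 : ℝ) : ℂ) * (T + a) := by rw [s1]; ring
  have s2' : P a (13 / 2) ((R ^ 2 / 4 : ℝ) : ℂ) =
      I * S (a + 1) (13 / 2) ((R ^ 2 / 4 : ℝ) : ℂ) * (a * (T + 11 / 2)) := by rw [s2]; ring
  rw [s1', s2']
  obtain ⟨s, hsd⟩ : ∃ s : ℂ, s = I * S (a + 1) (13 / 2) ((R ^ 2 / 4 : ℝ) : ℂ) := ⟨_, rfl⟩
  rw [← hsd]
  have hs0 : s ≠ 0 := by rw [hsd]; exact mul_ne_zero I_ne_zero hS1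
  have e : s * (a * (T + 11 / 2)) * conj (s * (T + a)) =
      ((normSq s : ℝ) : ℂ) * (a * (T + 11 / 2) * conj (T + a)) := by
    rw [map_mul, normSq_eq_conj_mul_self]; ring
  rw [e, re_ofReal_mul]
  refine mul_pos (normSq_pos.2 hs0) ?_
  refine final_pos (u := u) (ρ := R ^ 2 / 4) (by rw [har]; exact h0) (by rw [har]; exact h1.le)
    (by rw [hai]; exact hM) hρ hρ2 ?_ hTd
  rw [hud]
  have : (q (a + 1) (7 / 2 - a) (R ^ 2 / 4) - I * ((R ^ 2 / 4 : ℝ) : ℂ)).re =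
      (q (a + 1) (7 / 2 - a) (R ^ 2 / 4)).re := by
    rw [sub_re, mul_re, I_re, I_im, ofReal_re, ofReal_im]; ring
  rw [this]
  exact q3

end Vale.Agent.P139.H312
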